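import Vale.Agent.P281.H413.MFS.BaseW
import Vale.Agent.P272.K.N.Det
import Vale.Agent.P272.K.N.Setup

/-! P281, theorem MFS: smooth cut-off functions on `X`, and the form `η ∂u ⊗ ∂̄u ≤ α`. -/

open scoped Manifold ContDiff ComplexOrder Topology
open Complex Set Filter MeasureTheory

set_option linter.all false

noncomputable section

namespace Vale.Agent.P281.H413.MFS

open Vale.Agent.P272.K Vale.Agent.P272.K.AMP Vale.Agent.P299.D Vale.Agent.P299 Vale.Agent.P299.H882
open Vale.Agent.P281.H167.SA Vale.Agent.P281.H167.GM Vale.Agent.P281.H713.KD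
open INT (IsClosedForm)

variable {n : ℕ} {X : Type} [TopologicalSpace X] [ChartedSpace (Cm n) X]
  [IsManifold 𝓘(ℂ, Cm n) ω X]

/-- smooth cut-off functions -/
theorem exists_bump [T2Space X] {x : X} {V : Set X} (hV : V ∈ 𝓝 x) :
    ∃ η : X → ℝ, SmoothFn (n := n) η ∧ (∀ y, 0 ≤ η y) ∧ (∀ y, η y ≤ 1) ∧
      (∀ᶠ y in 𝓝 x, η y = 1) ∧ tsupport η ⊆ V := by
  haveI : LIN.RSm (Cm n) X := N.instRSm
  set e := chartAt (Cm n) x with he
  have hx : At e x := at_chartAt (n := n) x
  have hxs : x ∈ e.source := hx.2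
  have h1 : e.target ∩ e.symm ⁻¹' V ∈ 𝓝 (e x) := by
    have h2 : Tendsto e.symm (𝓝 (e x)) (𝓝 x) := by
      have := e.symm.continuousAt (x := e x) (e.map_source hxs)
      unfold ContinuousAt at this
      rwa [e.left_inv hxs] at this
    exact inter_mem (e.open_target.mem_nhds (e.map_source hxs)) (h2 hV)
  obtain ⟨R, hR, hRs⟩ := Metric.nhds_basis_closedBall.mem_iff.1 h1
  let b : ContDiffBump (e x) := ⟨R / 2, R, by positivity, by linarith⟩
  set K : Set (Cm n) := Metric.closedBall (e x) R with hK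
  have hKc : IsCompact K := isCompact_closedBall _ _
  have hKt : K ⊆ e.target := fun y hy => (hRs hy).1
  have hb0 : ∀ y, y ∉ K → b y = 0 := fun y hy => b.zero_of_le_dist (by
    rw [hK, Metric.mem_closedBall, not_le] at hy
    exact hy.le)
  have hc : IsClosed (e.symm '' K) :=
    (hKc.image_of_continuousOn (e.continuousOn_symm.mono hKt)).isClosed
  refine ⟨LIN.ext0 e b, ?_, fun y => ?_, fun y => ?_, ?_, ?_⟩
  · rw [N.smoothFn_iff]
    exact LIN.ext0_ck le_rfl hx.1 hKc hKt hb0 fun y _ => b.contDiffAt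
  · exact indicator_nonneg (fun x _ => b.nonneg) y
  · by_cases hy : y ∈ e.source
    · rw [LIN.ext0_of_mem hy]; exact b.le_one
    · rw [LIN.ext0_of_notMem hy]; exact zero_le_one
  · have h2 : ∀ᶠ y in 𝓝 x, e y ∈ Metric.closedBall (e x) (R / 2) :=
      (e.continuousAt hxs).eventually (Metric.closedBall_mem_nhds _ (by positivity))
    filter_upwards [e.open_source.mem_nhds hxs, h2] with y hy hy2
    rw [LIN.ext0_of_mem hy]
    exact b.one_of_mem_closedBall hy2
  · have h3 : Function.support (LIN.ext0 e b) ⊆ e.symm '' K := by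
      intro y hy
      rw [Function.mem_support] at hy
      have hys : y ∈ e.source := by
        by_contra h
        exact hy (LIN.ext0_of_notMem h)
      rw [LIN.ext0_of_mem hys] at hy
      refine ⟨e y, ?_, e.left_inv hys⟩
      by_contra h
      exact hy (hb0 _ h)
    refine (closure_minimal h3 hc).trans ?_
    rintro _ ⟨y, hy, rfl⟩
    exact (hRs hy).2

/-- extension of a function, smooth on an open set, to a global smooth function, equal to it near a
point -/
theorem exists_ext [T2Space X] {x : X} {V : Set X} (hV : IsOpen V) (hxV : x ∈ V) {F : X → ℝ}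
    (hF : ∀ y ∈ V, ∃ e : Chart n X, At e y ∧ ContDiffAt ℝ ∞ (fun z => F (e.symm z)) (e y)) :
    ∃ u : X → ℝ, SmoothFn (n := n) u ∧ ∃ V' : Set X, IsOpen V' ∧ x ∈ V' ∧ V' ⊆ V ∧
      ∀ y ∈ V', u y = F y := by
  haveI : LIN.RSm (Cm n) X := N.instRSm
  obtain ⟨η, hη, -, -, hη1, hηs⟩ := exists_bump (n := n) (hV.mem_nhds hxV)
  obtain ⟨V', hV's, hV'o, hxV'⟩ := mem_nhds_iff.1 (inter_mem hη1 (hV.mem_nhds hxV))
  refine ⟨fun y => η y * F y, ?_, V', hV'o, hxV', fun y hy => (hV's hy).2, fun y hy => ?_⟩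
  · rw [N.smoothFn_iff]
    refine LIN.ckFn_of_local le_rfl fun y => ?_
    by_cases hy : y ∈ V
    · obtain ⟨e, he, hFe⟩ := hF y hy
      exact ⟨e, he.1, he.2, (hη e y he).mul hFe⟩
    · have hy2 : y ∉ tsupport η := fun h => hy (hηs h)
      have h1 : ∀ᶠ z in 𝓝 y, η z = 0 := notMem_tsupport_iff_eventuallyEq.1 hy2
      have hyc := at_chartAt (n := n) y
      refine ⟨chartAt (Cm n) y, hyc.1, hyc.2,
        (contDiffAt_const (c := (0 : ℝ))).congr_of_eventuallyEq ?_⟩
      have h2 : Tendsto (chartAt (Cm n) y).symm (𝓝 (chartAt (Cm n) y y)) (𝓝 y) := by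
        have := (chartAt (Cm n) y).symm.continuousAt (x := chartAt (Cm n) y y)
          ((chartAt (Cm n) y).map_source hyc.2)
        unfold ContinuousAt at this
        rwa [(chartAt (Cm n) y).left_inv hyc.2] at this
      filter_upwards [h2.eventually h1] with z hz
      simp [hz]
  · have h1 : η y = 1 := (hV's hy).1
    simp [h1]

variable {α : D.FormM n X}

/-- transformation of semipositivity -/
lemma psd_chart {B : D.FormM n X} (hB : IsForm B) {e e' : Chart n X} {x : X} (h : At e x)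
    (h' : At e' x) (hP : (B e' (e' x)).PosSemidef) : (B e (e x)).PosSemidef := by
  rw [hB e e' x h h']
  have h1 := hP.conjTranspose_mul_mul_same ((jacM e e' x).map (starRingEnd ℂ))
  have h2 : ((jacM e e' x).map (starRingEnd ℂ)).conjTranspose = (jacM e e' x).transpose := by
    ext i j
    simp [Matrix.conjTranspose_apply, Matrix.map_apply]
  rwa [h2] at h1

lemma isForm_wF {η u : X → ℝ} (hu : SmoothFn (n := n) u) : IsForm (wF (n := n) η u) := by
  intro e e' x h h'
  have h1 := isForm_dd hu hu e e' x h h'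
  simp only [wF]
  rw [h.left_inv, h'.left_inv, h1, Matrix.mul_smul, Matrix.smul_mul]

lemma smooth_wF {η u : X → ℝ} (hη : SmoothFn (n := n) η) (hu : SmoothFn (n := n) u) (e : Chart n X)
    (x : X) (hx : At e x) (i j : Fin n) : ContDiffAt ℝ ∞ (fun z => wF (n := n) η u e z i j) (e x) := by
  simp only [wF, Matrix.smul_apply, smul_eq_mul]
  exact (ofReal_symm_contDiffAt hη hx).mul (contDiffAt_dd hu hu hx i j)

/-- `α ≥ c ∂u ⊗ ∂̄u` near a point where `α` is positive definite -/
lemma ev_ge_dd (hα : IsClosedForm α) (hα0 : ∀ e x, At e x → (α e (e x)).PosSemidef)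
    {u : X → ℝ} (hu : SmoothFn (n := n) u)
    {e : Chart n X} {x : X} (hx : At e x) (hP : (α e (e x)).PosDef) :
    ∃ c : ℝ, 0 < c ∧ ∀ᶠ y in 𝓝 x, At e y ∧ (α e (e y) - (c : ℂ) • dd u u e (e y)).PosSemidef := by
  obtain ⟨ε, hε, hnear⟩ := N.posDef_of_near hP
  set K : ℝ := ∑ i, ∑ j, (‖dd u u e (e x) i j‖ + 1) with hK
  have hK0 : 0 ≤ K := Finset.sum_nonneg fun i _ => Finset.sum_nonneg fun j _ => by positivity
  have hle : ∀ i j, ‖dd u u e (e x) i j‖ + 1 ≤ K := fun i j =>
    (Finset.single_le_sum (f := fun j => ‖dd u u e (e x) i j‖ + 1) (fun j _ => by positivity)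
      (Finset.mem_univ j)).trans
      (Finset.single_le_sum (f := fun i => ∑ j, (‖dd u u e (e x) i j‖ + 1))
      (fun i _ => Finset.sum_nonneg fun j _ => by positivity) (Finset.mem_univ i))
  set c : ℝ := ε / (2 * (K + 1)) with hc
  have hc0 : 0 < c := by positivity
  have hcK : c * K ≤ ε / 2 := by
    rw [hc, div_mul_eq_mul_div, div_le_div_iff₀ (by positivity) (by norm_num)]
    nlinarith
  refine ⟨c, hc0, ?_⟩
  have h1 : ∀ i j, ∀ᶠ y in 𝓝 x, ‖α e (e y) i j - α e (e x) i j‖ < ε / 2 := by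
    intro i j
    have h2 : ContinuousAt (fun y => α e (e y) i j) x :=
      ((hα.smooth e x hx i j).continuousAt).comp (f := e) (e.continuousAt hx.2)
    have h3 := Metric.continuousAt_iff'.1 h2 (ε / 2) (by positivity)
    simpa only [dist_eq_norm] using h3
  have h1' : ∀ i j, ∀ᶠ y in 𝓝 x, ‖dd u u e (e y) i j‖ < ‖dd u u e (e x) i j‖ + 1 := by
    intro i j
    have h2 : ContinuousAt (fun y => dd u u e (e y) i j) x :=
      ((contDiffAt_dd hu hu hx i j).continuousAt).comp (f := e) (e.continuousAt hx.2)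
    exact h2.norm.eventually (gt_mem_nhds (by linarith))
  have h4 : ∀ᶠ y in 𝓝 x, At e y := by
    filter_upwards [e.open_source.mem_nhds hx.2] with y hy using ⟨hx.1, hy⟩
  have h5 : ∀ᶠ y in 𝓝 x, ∀ i j, ‖α e (e y) i j - α e (e x) i j‖ < ε / 2 := by
    rw [eventually_all]
    intro i
    rw [eventually_all]
    exact h1 i
  have h5' : ∀ᶠ y in 𝓝 x, ∀ i j, ‖dd u u e (e y) i j‖ < ‖dd u u e (e x) i j‖ + 1 := by
    rw [eventually_all]
    intro i
    rw [eventually_all]
    exact h1' i
  filter_upwards [h4, h5, h5'] with y hy hy2 hy3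
  refine ⟨hy, (hnear _ ?_ fun i j => ?_).posSemidef⟩
  · have a1 : (dd u u e (e y)).IsHermitian := by
      rw [dd_eq_vec]
      exact (Matrix.posSemidef_vecMulVec_self_star _).1
    have a2 : (((c : ℂ)) • dd u u e (e y)).IsHermitian := by
      rw [Matrix.IsHermitian, Matrix.conjTranspose_smul, a1.eq]
      simp
    exact (hα0 e y hy).1.sub a2
  · have b1 := hy2 i j
    have b2 : ‖((c : ℂ) • dd u u e (e y)) i j‖ ≤ ε / 2 := by
      simp only [Matrix.smul_apply, smul_eq_mul, norm_mul, Complex.norm_real, Real.norm_eq_abs,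
        abs_of_pos hc0]
      exact (mul_le_mul_of_nonneg_left ((hy3 i j).le.trans (hle i j)) hc0.le).trans hcK
    have b3 : (α e (e y) - (c : ℂ) • dd u u e (e y)) i j - α e (e x) i j =
        (α e (e y) i j - α e (e x) i j) - ((c : ℂ) • dd u u e (e y)) i j := by
      simp only [Matrix.sub_apply]
      ring
    rw [b3]
    refine (norm_sub_le _ _).trans ?_
    linarith

/-- the cut-off function `η` with `η ∂u ⊗ ∂̄u ≤ α` -/
theorem exists_eta [T2Space X] (hα : IsClosedForm α)
    (hα0 : ∀ e x, At e x → (α e (e x)).PosSemidef)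
    {u : X → ℝ} (hu : SmoothFn (n := n) u)
    {e : Chart n X} {x : X} (hx : At e x) (hP : (α e (e x)).PosDef) {V : Set X} (hV : V ∈ 𝓝 x) :
    ∃ η : X → ℝ, SmoothFn (n := n) η ∧ (∀ y, 0 ≤ η y) ∧ 0 < η x ∧ tsupport η ⊆ V ∧
      ∀ e y, At e y → (α e (e y) - wF η u e (e y)).PosSemidef := by
  obtain ⟨c, hc, hev⟩ := ev_ge_dd hα hα0 hu hx hP
  obtain ⟨η, hη, hη0, hη1, hηx, hηs⟩ := exists_bump (n := n) (inter_mem hV hev)
  refine ⟨fun y => c * η y, fun e x hx => contDiffAt_const.mul (hη e x hx),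
    fun y => mul_nonneg hc.le (hη0 y), ?_, ?_, fun e' y hy => ?_⟩
  · show 0 < c * η x
    rw [hηx.self_of_nhds]; linarith
  · refine subset_trans (closure_mono fun y hy => ?_) (hηs.trans inter_subset_left)
    rw [Function.mem_support] at hy ⊢
    intro h
    exact hy (by simp [h])
  · by_cases h0 : η y = 0
    · have h1 : wF (n := n) (fun y => c * η y) u e' (e' y) = 0 := by
        simp only [wF]
        rw [hy.left_inv, h0]
        simp
      rw [h1, sub_zero]
      exact hα0 e' y hy
    · obtain ⟨-, hey, hps⟩ := hηs (subset_tsupport _ h0)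
      set B : D.FormM n X := fun e z => α e z - wF (n := n) (fun y => c * η y) u e z with hB
      have hBf : IsForm B := by
        intro a b z ha hb
        have h1 := hα.form a b z ha hb
        have h2 := isForm_wF (η := fun y => c * η y) hu a b z ha hb
        simp only [hB]
        rw [h1, h2, Matrix.mul_sub, Matrix.sub_mul]
      refine psd_chart hBf hy hey ?_
      have h3 : B e (e y) = (α e (e y) - (c : ℂ) • dd u u e (e y)) +
          ((c * (1 - η y) : ℝ) : ℂ) • dd u u e (e y) := by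
        simp only [hB, wF]
        rw [hey.left_inv, sub_add, ← sub_smul]
        congr 2
        push_cast
        ring
      rw [h3]
      refine hps.add (psd_real_smul ?_ (mul_nonneg hc.le (by linarith [hη1 y])))
      rw [dd_eq_vec]
      exact Matrix.posSemidef_vecMulVec_self_star _

end Vale.Agent.P281.H413.MFS
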