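import Vale.Agent.P281.H949.TL.Thin

/-! P281, theorem MFS: density of the set of the good points of `Z`. -/

open scoped Manifold ContDiff Topology
open Set Filter Vale.Agent.P272.K

set_option linter.all false

noncomputable section

namespace Vale.Agent.P281.H413.MFS

open Vale.Agent.P281 Vale.Agent.P281.MF Vale.Agent.P281.ISO Vale.Agent.P281.H713.SA

variable {n p : ℕ} {X Z Y : Type} [TopologicalSpace X] [ChartedSpace (Cm n) X]
  [IsManifold 𝓘(ℂ, Cm n) ω X] [TopologicalSpace Z] [ChartedSpace (Cm n) Z]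
  [IsManifold 𝓘(ℂ, Cm n) ω Z] [TopologicalSpace Y] [ChartedSpace (Cm p) Y]
  [IsManifold 𝓘(ℂ, Cm p) ω Y]

lemma inv_left {V : Type*} [NormedAddCommGroup V] [NormedSpace ℂ V] {L : V →L[ℂ] V}
    (hL : IsUnit L) (v : V) : Ring.inverse L (L v) = v := by
  have := congrArg (fun T : V →L[ℂ] V => T v) (Ring.inverse_mul_cancel _ hL)
  exact this

lemma inv_right {V : Type*} [NormedAddCommGroup V] [NormedSpace ℂ V] {L : V →L[ℂ] V}
    (hL : IsUnit L) (v : V) : L (Ring.inverse L v) = v := by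
  have := congrArg (fun T : V →L[ℂ] V => T v) (Ring.mul_inverse_cancel _ hL)
  exact this

/-- the submersivity of `f` is, locally, the nonvanishing of a holomorphic map -/
theorem local_surj {f : Z → Y} (hf : ∀ z, HolM (Cm n) (Cm p) f z) (z : Z) :
    ∃ θ : Z → ((Fin p → Fin n) → ℂ), HolV (Cm n) θ z ∧
      ∀ᶠ w in 𝓝 z, Function.Surjective (dM (Cm n) (Cm p) f w) ↔ θ w ≠ 0 := by
  set e := chartAt (Cm n) z with he
  set c := chartAt (Cm p) (f z) with hc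
  have hze : z ∈ e.source := mem_chart_source _ _
  have hzc : f z ∈ c.source := mem_chart_source _ _
  set A : Z → (Cm n →L[ℂ] Cm p) := fun w =>
    (dV (Cm n) (fun w => c (f w)) w).comp (Ring.inverse (dV (Cm n) (e : Z → Cm n) w)) with hA
  have hAh : HolV (Cm n) A z := holV_quot (HolV.comp (h := (c : Y → Cm p)) (HolV.chart hzc) (hf z))
    (HolV.chart hze) (isUnit_dV_chart hze)
  refine ⟨fun w K => (mK (A w) K).det, contMDiffAt_pi_space.2 fun K => holV_det_mK hAh K, ?_⟩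
  filter_upwards [e.open_source.mem_nhds hze,
    (hf z).continuousAt.eventually (c.open_source.mem_nhds hzc)] with w hw hwc
  have hu : IsUnit (dV (Cm n) (e : Z → Cm n) w) := isUnit_dV_chart hw
  have hL : IsUnit (dV (Cm p) (c : Y → Cm p) (f w)) := isUnit_dV_chart hwc
  have h1 : dV (Cm n) (fun w => c (f w)) w =
      (dV (Cm p) (c : Y → Cm p) (f w)).comp (dM (Cm n) (Cm p) f w) :=
    dV_comp (h := (c : Y → Cm p)) (HolV.chart hwc) (hf w)
  set L := dV (Cm p) (c : Y → Cm p) (f w) with hLd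
  set E := dV (Cm n) (e : Z → Cm n) w with hEd
  have h2 : ∀ x, A w x = L (dM (Cm n) (Cm p) f w (Ring.inverse E x)) := by
    intro x
    simp only [hA]
    rw [h1]
    rfl
  have h3 : Function.Surjective (A w) ↔ Function.Surjective (dM (Cm n) (Cm p) f w) := by
    constructor
    · intro hs y
      obtain ⟨x, hx⟩ := hs (L y)
      refine ⟨Ring.inverse E x, ?_⟩
      rw [h2] at hx
      have h4 := congrArg (fun t : Cm p => (Ring.inverse L) t) hx
      simp only [inv_left hL] at h4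
      exact h4
    · intro hs y
      obtain ⟨v, hv⟩ := hs (Ring.inverse L y)
      refine ⟨E v, ?_⟩
      rw [h2, inv_left hu, hv, inv_right hL]
  rw [← h3, surj_iff_minor, Function.ne_iff]
  rfl

theorem surj_open_dense [PreconnectedSpace Z] {f : Z → Y} (hf : ∀ z, HolM (Cm n) (Cm p) f z)
    (hs : ∃ z, Function.Surjective (dM (Cm n) (Cm p) f z)) :
    IsOpen {z | Function.Surjective (dM (Cm n) (Cm p) f z)} ∧
      Dense {z | Function.Surjective (dM (Cm n) (Cm p) f z)} := by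
  refine ⟨?_, H716.dense_of_localV (E := Cm n) (V := (Fin p → Fin n) → ℂ) hs fun z =>
    local_surj hf z⟩
  rw [isOpen_iff_mem_nhds]
  intro z hz
  obtain ⟨θ, hθ, hev⟩ := local_surj hf z
  have h0 : θ z ≠ 0 := hev.self_of_nhds.1 hz
  filter_upwards [hev, hθ.continuousAt.eventually_ne h0] with w h1 h2 using h1.2 h2

/-- **the good points of `Z` are dense** -/
theorem dense_goodZ [ConnectedSpace X] [ConnectedSpace Y] {j : Z → X}
    (hj : J.IsBigOpen (Cm n) j) {f : Z → Y} (hf : ContMDiff 𝓘(ℂ, Cm n) 𝓘(ℂ, Cm p) ω f)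
    (hs : ∃ z, Function.Surjective (mfderiv 𝓘(ℂ, Cm n) 𝓘(ℂ, Cm p) f z))
    {𝒢 : Set (Set Y)} (hfin : 𝒢.Finite) (hpr : ∀ G ∈ 𝒢, IsPrimeDivisor (Cm p) G)
    {m : ℕ} {k : Set Y → ℕ} (hk : ∀ G, k G ≠ 0 → G ∈ 𝒢) {σ : Y → ℂ}
    (hσ : J.IsSection (Cm p) (fun (G : Set Y) y g => J.IsLocalEq (Cm p) G g y) m k σ)
    (hσ0 : ∃ y, (∀ G ∈ 𝒢, y ∉ G) ∧ σ y ≠ 0) {R : Set X} (hR : IsOpen R) (hRd : Dense R)
    {D : Set X} (hD : Dense D) :
    Dense {z : Z | Function.Surjective (mfderiv 𝓘(ℂ, Cm n) 𝓘(ℂ, Cm p) f z) ∧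
      f z ∉ ⋃₀ 𝒢 ∧ σ (f z) ≠ 0 ∧ j z ∈ R ∧ j z ∈ D} := by
  haveI : PreconnectedSpace Z := H949.TL.preconnected_big hj
  have hfh : ∀ z, HolM (Cm n) (Cm p) f z := fun z => hf z
  obtain ⟨hSo, hSd⟩ := surj_open_dense hfh hs
  have hkfin : {G | k G ≠ 0}.Finite := hfin.subset fun G hG => hk G hG
  have hkpr : ∀ G, k G ≠ 0 → IsPrimeDivisor (Cm p) G := fun G hG => hpr G (hk G hG)
  obtain ⟨y₀, hy₀, hy₀0⟩ := hσ0
  obtain ⟨hYo, hYd⟩ := open_dense_ne (E₀ := Cm p) (F := Y) hkfin hkpr hσ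
    ⟨y₀, fun G hG => hy₀ G (hk G hG), hy₀0⟩
  have h𝒢od := dense_compl_finite (X := Y) hfin (fun G hG => (hpr G hG).1) (fun G hG => by
    rw [dense_iff_inter_open]
    intro U hU hUne
    obtain ⟨x, hxU, hxD⟩ := IsLocalEq.exists_notMem (hpr G hG).2.1 hU hUne
    exact ⟨x, hxU, hxD⟩)
  set Yd : Set Y := {y | (∀ G, k G ≠ 0 → y ∉ G) ∧ σ y ≠ 0} ∩ {y | ∀ G ∈ 𝒢, y ∉ G} with hYdd
  have hYdo : IsOpen Yd := hYo.inter h𝒢od.1
  have hYdD : Dense Yd := hYd.inter_of_isOpen_left h𝒢od.2 hYo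
  have hjc : Continuous j := hj.1.continuous
  have hfc : Continuous f := hf.continuous
  -- the open set
  set O : Set Z := {z | Function.Surjective (dM (Cm n) (Cm p) f z)} ∩ j ⁻¹' R ∩ f ⁻¹' Yd with hO
  have hOo : IsOpen O := (hSo.inter (hR.preimage hjc)).inter (hYdo.preimage hfc)
  have hjR : Dense (j ⁻¹' R) := hRd.preimage hj.2.1.isOpenMap
  have hOd : Dense O := by
    rw [dense_iff_inter_open]
    intro U hU hUne
    have h1 : Dense ({z | Function.Surjective (dM (Cm n) (Cm p) f z)} ∩ j ⁻¹' R) :=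
      hSd.inter_of_isOpen_left hjR hSo
    obtain ⟨z, hzU, hz⟩ := h1.inter_open_nonempty U hU hUne
    have h2 : U ∩ ({z | Function.Surjective (dM (Cm n) (Cm p) f z)} ∩ j ⁻¹' R) ∈ 𝓝 z :=
      (hU.inter (hSo.inter (hR.preimage hjc))).mem_nhds ⟨hzU, hz⟩
    have h3 : f '' (U ∩ ({z | Function.Surjective (dM (Cm n) (Cm p) f z)} ∩ j ⁻¹' R)) ∈ 𝓝 (f z) :=
      H713.SA.nhds_le_map (hfh z) hz.1 (image_mem_map h2)
    obtain ⟨y, hy, w, hw, rfl⟩ := hYdD.inter_nhds_nonempty h3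
    exact ⟨w, hw.1, hw.2, hy⟩
  have hfin2 : Dense (O ∩ j ⁻¹' D) :=
    hOd.inter_of_isOpen_left (hD.preimage hj.2.1.isOpenMap) hOo
  refine hfin2.mono ?_
  rintro z ⟨⟨⟨h1, h2⟩, h3, h4⟩, h5⟩
  refine ⟨h1, ?_, h3.2, h2, h5⟩
  rintro ⟨G, hG, hGz⟩
  exact h4 G hG hGz

end Vale.Agent.P281.H413.MFS
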