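import Vale.Agent.P281.H413.MFS.Cut
import Vale.Agent.P281.H713.SA.T5

/-! P281, theorem MFS: real parts of holomorphic functions of `f`, on `X`; from the vanishing of their
differentials on `ker θ` to `ker θ ⊂ ker df`. -/

open scoped Manifold ContDiff ComplexOrder Topology
open Set Filter Vale.Agent.P272.K

set_option linter.all false

noncomputable section

namespace Vale.Agent.P281.H413.MFS

open Vale.Agent.P281 Vale.Agent.P281.MF Vale.Agent.P281.ISO Vale.Agent.P281.H713.SA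
open Vale.Agent.P299.H882 (xi)

section wirt

variable {n : ℕ} {z : Cm n}

lemma clm_sum' {p : ℕ} (lam : Cm p →L[ℂ] ℂ) (v : Cm p) :
    lam v = ∑ a, lam (Pi.single a 1) * v a := by
  have h4 : v = ∑ a : Fin p, v a • Pi.single a (1 : ℂ) := by
    funext i
    simp [Finset.sum_apply, Pi.single_apply]
  conv_lhs => rw [h4]
  rw [map_sum]
  refine Finset.sum_congr rfl fun a _ => ?_
  rw [map_smul, smul_eq_mul, mul_comm]

/-- `∂ Re H = (1/2) dH` -/
theorem xi_re {X : Type} [TopologicalSpace X] {u : X → ℝ} {e : Chart n X} {H : Cm n → ℂ}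
    (hH : AnalyticAt ℂ H z) (hu : ∀ᶠ y in 𝓝 z, u (e.symm y) = (H y).re) (k : Fin n) :
    xi u e z k = (1 / 2 : ℂ) * fderiv ℂ H z (Pi.single k 1) := by
  have hd : DifferentiableAt ℂ H z := hH.differentiableAt
  have hdr : DifferentiableAt ℝ H z := hd.restrictScalars ℝ
  have h1 : (fun y => ((u (e.symm y) : ℝ) : ℂ)) =ᶠ[𝓝 z] fun y =>
      (1 / 2 : ℂ) * (H y + (starRingEnd ℂ) (H y)) := by
    filter_upwards [hu] with y hy
    rw [hy, Complex.add_conj]
    push_cast
    ring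
  show dz k (fun y => ((u (e.symm y) : ℝ) : ℂ)) z = _
  have h2 : DifferentiableAt ℝ (fun y => H y + (starRingEnd ℂ) (H y)) z :=
    hdr.add (C2.differentiableAt_conj hdr)
  rw [C2.dz_congr k h1, C2.dz_const_mul (f := fun y => H y + (starRingEnd ℂ) (H y)) k _ h2,
    C2.dz_add (f := H) (g := fun y => (starRingEnd ℂ) (H y)) k hdr (C2.differentiableAt_conj hdr),
    C2.dz_conj k hdr, dz_of_holo hd, dzb_of_holo hd]
  simp

theorem xi_re_sum {X : Type} [TopologicalSpace X] {u : X → ℝ} {e : Chart n X} {H : Cm n → ℂ}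
    (hH : AnalyticAt ℂ H z) (hu : ∀ᶠ y in 𝓝 z, u (e.symm y) = (H y).re) (v : Cm n) :
    ∑ k, xi u e z k * v k = (1 / 2 : ℂ) * fderiv ℂ H z v := by
  rw [clm_sum' (fderiv ℂ H z) v, Finset.mul_sum]
  refine Finset.sum_congr rfl fun k _ => ?_
  rw [xi_re hH hu k]
  ring

end wirt

section chart

variable {n : ℕ} {X : Type} [TopologicalSpace X] [ChartedSpace (Cm n) X]
  [IsManifold 𝓘(ℂ, Cm n) ω X]

/-- the differential of the preferred chart is the identity -/
theorem dV_chartAt' (x : X) : dV (Cm n) (chartAt (Cm n) x : X → Cm n) x =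
    ContinuousLinearMap.id ℂ (Cm n) := by
  have h : MDifferentiableAt 𝓘(ℂ, Cm n) 𝓘(ℂ, Cm n) (chartAt (Cm n) x : X → Cm n) x :=
    (HolV.chart (mem_chart_source _ _)).mdiff
  unfold dV
  rw [h.mfderiv]
  have h1 : writtenInExtChartAt 𝓘(ℂ, Cm n) 𝓘(ℂ, Cm n) x (chartAt (Cm n) x : X → Cm n) =ᶠ[
      𝓝 (chartAt (Cm n) x x)] id := by
    filter_upwards [(chartAt (Cm n) x).open_target.mem_nhds
      ((chartAt (Cm n) x).map_source (mem_chart_source _ _))] with y hy
    simp only [mfld_simps]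
    exact (chartAt (Cm n) x).right_inv hy
  simp only [mfld_simps, fderivWithin_univ] at h1 ⊢
  rw [h1.fderiv_eq, fderiv_id]

/-- a function holomorphic in the coordinates of the chart `e` -/
theorem analyticAt_symm' {e : Chart n X} {x : X} (h : At e x) {F : X → ℂ}
    (hF : HolV (Cm n) F x) : AnalyticAt ℂ (fun z => F (e.symm z)) (e x) := by
  have hmem : e ∈ IsManifold.maximalAtlas 𝓘(ℂ, Cm n) ω X := IsManifold.subset_maximalAtlas h.1
  have h2 : ContMDiffAt 𝓘(ℂ, Cm n) 𝓘(ℂ, Cm n) ω e.symm (e x) :=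
    contMDiffAt_symm_of_mem_maximalAtlas hmem (e.map_source h.2)
  have h3 : ContMDiffAt 𝓘(ℂ, Cm n) 𝓘(ℂ, ℂ) ω (fun z => F (e.symm z)) (e x) := by
    refine ContMDiffAt.comp (I' := 𝓘(ℂ, Cm n)) (g := F) (e x) ?_ h2
    rw [e.left_inv h.2]
    exact hF
  exact (contMDiffAt_iff_contDiffAt.1 h3).analyticAt

end chart

variable {n p : ℕ} {X Z Y : Type} [TopologicalSpace X]
  [ChartedSpace (Cm n) X] [IsManifold 𝓘(ℂ, Cm n) ω X]
  [TopologicalSpace Z] [ChartedSpace (Cm n) Z] [IsManifold 𝓘(ℂ, Cm n) ω Z]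
  [TopologicalSpace Y] [ChartedSpace (Cm p) Y] [IsManifold 𝓘(ℂ, Cm p) ω Y]

/-- the real part of a holomorphic function on `Z`, extended to `X` -/
theorem exists_G [T2Space X] {j : Z → X} (hj : ∀ z, HolM (Cm n) (Cm n) j z)
    (emb : Topology.IsOpenEmbedding j) (inj : ∀ z, Function.Injective (dM (Cm n) (Cm n) j z))
    {z : Z} {h : Z → ℂ} (hh : HolV (Cm n) h z) {U : Set Z} (hU : U ∈ 𝓝 z) :
    ∃ (u : X → ℝ) (V : Set X), SmoothFn (n := n) u ∧ IsOpen V ∧ j z ∈ V ∧
      ∀ x ∈ V, ∃ w ∈ U, j w = x ∧ HolV (Cm n) h w ∧ ∀ e : Chart n X, At e x → ∀ ξ : Cm n,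
        ∑ i, xi u e (e x) i * dV (Cm n) (fun w => e (j w)) w ξ i =
          (1 / 2 : ℂ) * dV (Cm n) h w ξ := by
  classical
  set G : X → ℂ := fun x => if hx : ∃ w, j w = x then h hx.choose else 0 with hG
  have hGj : ∀ w, G (j w) = h w := by
    intro w
    have h1 : ∃ w', j w' = j w := ⟨w, rfl⟩
    simp only [hG]
    rw [dif_pos h1, emb.injective h1.choose_spec]
  obtain ⟨O, hOU, hOo, hzO⟩ := mem_nhds_iff.1 (inter_mem hU hh.eventually)
  have hGh : ∀ w ∈ O, HolV (Cm n) G (j w) := by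
    intro w hw
    refine holV_of_comp (hj w) (inj w) ?_
    have h2 : (fun w => G (j w)) = h := funext hGj
    rw [h2]
    exact (hOU hw).2
  have hVo : IsOpen (j '' O) := emb.isOpenMap O hOo
  obtain ⟨u, hu, V, hV, hxV, hVO, huV⟩ := exists_ext (n := n) hVo (mem_image_of_mem j hzO)
    (F := fun x => (G x).re) (fun y hy => by
      obtain ⟨w, hw, rfl⟩ := hy
      refine ⟨chartAt (Cm n) (j w), AMP.at_chartAt (j w), ?_⟩
      have h1 := analyticAt_symm' (AMP.at_chartAt (n := n) (j w)) (hGh w hw)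
      have h2 : ContDiffAt ℝ ∞ (fun z => G ((chartAt (Cm n) (j w)).symm z))
          (chartAt (Cm n) (j w) (j w)) := (h1.contDiffAt.restrict_scalars ℝ)
      exact (Complex.reCLM.contDiff.contDiffAt).comp _ h2)
  refine ⟨u, V, hu, hV, hxV, fun x hx => ?_⟩
  obtain ⟨w, hw, rfl⟩ := hVO hx
  refine ⟨w, (hOU hw).1, rfl, (hOU hw).2, fun e he ξ => ?_⟩
  have hH : AnalyticAt ℂ (fun y => G (e.symm y)) (e (j w)) := analyticAt_symm' he (hGh w hw)
  have hsymm : Tendsto e.symm (𝓝 (e (j w))) (𝓝 (j w)) := by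
    have := (e.continuousAt_symm (e.map_source he.2)).tendsto
    rwa [e.left_inv he.2] at this
  have hue : ∀ᶠ y in 𝓝 (e (j w)), u (e.symm y) = (G (e.symm y)).re := by
    filter_upwards [hsymm.eventually (hV.mem_nhds hx)] with y hy
    exact huV _ hy
  rw [xi_re_sum hH hue]
  have h3 : dV (Cm n) h w = (fderiv ℂ (fun y => G (e.symm y)) (e (j w))).comp
      (dV (Cm n) (fun w => e (j w)) w) := by
    rw [← dV_comp_contDiff (G := fun y => G (e.symm y)) (v := fun w => e (j w)) hH.contDiffAt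
      (holV_ej hj he)]
    refine dV_congr ?_
    filter_upwards [(hj w).continuousAt.eventually (e.open_source.mem_nhds he.2)] with w' hw'
    rw [e.left_inv hw', hGj]
  rw [h3]
  rfl

/-- **from the functions `Re (y_a ∘ f)` to `df`** -/
theorem ker_of_core [T2Space X] {j : Z → X} (hj : ∀ z, HolM (Cm n) (Cm n) j z)
    (emb : Topology.IsOpenEmbedding j) (inj : ∀ z, Function.Injective (dM (Cm n) (Cm n) j z))
    {f : Z → Y} (hf : ∀ z, HolM (Cm n) (Cm p) f z) {z : Z} {v : Cm n}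
    (hcore : ∀ (u : X → ℝ) (V : Set X), SmoothFn (n := n) u → IsOpen V → j z ∈ V →
      (∀ (e : Chart n X) (y : X), At e y → y ∈ V → ∀ v : Cm n, (∀ w, j w = y → ∀ ξ : Cm n,
        dV (Cm n) (fun w => e (j w)) w ξ = v → dM (Cm n) (Cm p) f w ξ = 0) →
        ∑ i, xi u e (e y) i * v i = 0) →
      ∑ i, xi u (chartAt (Cm n) (j z)) (chartAt (Cm n) (j z) (j z)) i *
        (dM (Cm n) (Cm n) j z v) i = 0) : dM (Cm n) (Cm p) f z v = 0 := by
  set c := chartAt (Cm p) (f z) with hc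
  have hfz : f z ∈ c.source := mem_chart_source _ _
  have hU : {w | f w ∈ c.source} ∈ 𝓝 z :=
    (hf z).continuousAt.eventually (c.open_source.mem_nhds hfz)
  have hcf : ∀ w, f w ∈ c.source → HolV (Cm n) (fun w => c (f w)) w := fun w hw =>
    HolV.comp (h := (c : Y → Cm p)) (HolV.chart hw) (hf w)
  have hdc : ∀ w, f w ∈ c.source → dV (Cm n) (fun w => c (f w)) w =
      (dV (Cm p) (c : Y → Cm p) (f w)).comp (dM (Cm n) (Cm p) f w) := fun w hw =>
    dV_comp (h := (c : Y → Cm p)) (HolV.chart hw) (hf w)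
  have hAt : At (chartAt (Cm n) (j z)) (j z) := AMP.at_chartAt (j z)
  have hjv : dV (Cm n) (fun w => chartAt (Cm n) (j z) (j w)) z v = dM (Cm n) (Cm n) j z v := by
    rw [dV_comp (h := (chartAt (Cm n) (j z) : X → Cm n)) (holV_at hAt) (hj z), dV_chartAt']
    rfl
  have key : ∀ a : Fin p, dV (Cm n) (fun w => c (f w)) z v a = 0 := by
    intro a
    have hha : ∀ w, f w ∈ c.source → ∀ ξ : Cm n, dV (Cm n) (fun w => c (f w) a) w ξ =
        dV (Cm n) (fun w => c (f w)) w ξ a := fun w hw ξ => (dV_apply (hcf w hw) a ξ).symm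
    obtain ⟨u, V, hu, hV, hxV, hVx⟩ := exists_G hj emb inj (z := z) (h := fun w => c (f w) a)
      ((hcf z hfz).eval a) hU
    have h1 := hcore u V hu hV hxV (fun e y he hy v' hv' => by
      obtain ⟨w, hwU, rfl, hw, hwe⟩ := hVx y hy
      have hunit := isUnit_ej hj inj (e := e) (z := w) he
      set L := dV (Cm n) (fun w => e (j w)) w with hL
      have h2 : L (Ring.inverse L v') = v' := by
        have := congrArg (fun T : Cm n →L[ℂ] Cm n => T v') (Ring.mul_inverse_cancel _ hunit)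
        exact this
      have h3 := hwe e he (Ring.inverse L v')
      rw [h2] at h3
      rw [h3, hha w hwU, hdc w hwU]
      have h4 : dM (Cm n) (Cm p) f w (Ring.inverse L v') = 0 := hv' w rfl _ h2
      rw [ContinuousLinearMap.comp_apply, h4, map_zero]
      simp)
    obtain ⟨w, hwU, hw1, hw, hwe⟩ := hVx (j z) hxV
    have hwz : w = z := emb.injective hw1
    subst hwz
    have h2 := hwe (chartAt (Cm n) (j w)) hAt v
    rw [hjv, h1, hha w hwU] at h2
    have h3 : (1 / 2 : ℂ) ≠ 0 := by norm_num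
    exact (mul_eq_zero.1 h2.symm).resolve_left h3
  have h5 : dV (Cm n) (fun w => c (f w)) z v = 0 := funext key
  rw [hdc z hfz, dV_chartAt'] at h5
  exact h5

end Vale.Agent.P281.H413.MFS
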