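import Vale.Agent.P281.H413.MFS.DataX
import Vale.Agent.P281.H413.MFS.LocU
import Vale.Agent.P281.H413.MFS.DensM

/-! P281, theorem MFS, row M-AX (assembly on `X`): `ker θ ⊂ ker df` generically. -/

open scoped Manifold ContDiff ComplexOrder Topology
open Set Filter Vale.Agent.P281 Vale.Agent.P272.K Vale.Agent.P272.K.AMP Vale.Agent.P299
open Vale.Agent.P299.H882 (xi qf)
open Vale.Agent.P272.K.INT (IsClosedForm)

set_option linter.all false

noncomputable section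

namespace Vale.Agent.P281.H413.MFS

open Vale.Agent.P281.H713 Vale.Agent.P281.H713.SA Vale.Agent.P281.H713.KD Vale.Agent.P281.H716
open Vale.Agent.P281.H167.GM (mixX addF CohPart EpsPart ev_posDef)
open Vale.Agent.P281.H167.KG (LocAt FormPartG)
open Vale.Agent.P281.H368.MFS (IsSemiPos VolLoc ConAt SmallAt GrowthPartM TenPartM KerPartM KerAt
  KerF InKer)


/-- positivity does not depend on the chart -/
lemma posDef_chart {n : ℕ} {X : Type} [TopologicalSpace X] [ChartedSpace (Cm n) X]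
    [IsManifold 𝓘(ℂ, Cm n) ω X] {B : D.FormM n X} (hB : IsForm B)
    (hB0 : ∀ e x, At e x → (B e (e x)).PosSemidef) {e e' : Chart n X} {x : X} (h : At e x)
    (h' : At e' x) (hP : (B e' (e' x)).PosDef) : (B e (e x)).PosDef := by
  refine (hB0 e x h).posDef_iff_isUnit.2 ?_
  rw [Matrix.isUnit_iff_isUnit_det, isUnit_iff_ne_zero, hB e e' x h h', Matrix.det_mul,
    Matrix.det_mul, Matrix.det_transpose]
  have h1 : (jacM e e' x).det ≠ 0 := jacM_det_ne_zero h h'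
  have h2 : ((jacM e e' x).map (starRingEnd ℂ)).det = (starRingEnd ℂ) (jacM e e' x).det := by
    rw [RingHom.map_det]
    rfl
  rw [h2]
  have h3 : (starRingEnd ℂ) (jacM e e' x).det ≠ 0 := by simpa using h1
  exact mul_ne_zero (mul_ne_zero h1 hP.det_pos.ne') h3

/-- **Row M-AX**. -/
theorem kerPartM (coh : CohPart) (eps : EpsPart) (bd : BdPart) (int : IntPart)
    (mass : H156.MFS.MassPartM) (hform : FormPartG) (hgr : GrowthPartM) (ten : TenPartM) :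
    KerPartM := by
  intro n p X Z Y _ _ _ _ _ _ _ _ _ _ _ _ _ _ χ hχ Δ hΔ hΔ1 m hm k hk α θ hα hθ hαd ν hν hνd W hW
    j hj f hf hsub 𝒢 h𝒢f h𝒢p m' hm' K₀ hK₀ σ hσ hσ0
  obtain ⟨M, Dv, r, R, φ, ρ, C, C₁, hinj, hDv, hBd, hφ, hρs, hρ0, hρd, hC0, hC, hgrow⟩ :=
    exists_dataX hform hgr hχ hΔ hm hk hα hθ hν hW
  obtain ⟨μ, K, N₀, N₁, hμ, hK, hdec, -, hgood, hpos⟩ := ten n p M X Z Y χ hχ j hj f hf hsub 𝒢 h𝒢f
    h𝒢p Δ hΔ Dv hinj hDv r R hBd m' hm' K₀ hK₀ σ hσ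
  have hm0 : (0 : ℝ) < m := by exact_mod_cast hm
  have hdl : ∀ i, 0 ≤ Δ (Dv i) ∧ Δ (Dv i) < 1 := fun i => by
    refine ⟨?_, hΔ1 _⟩
    have h1 := hk (Dv i)
    have h2 : (0 : ℝ) ≤ m * Δ (Dv i) := h1 ▸ Nat.cast_nonneg _
    exact nonneg_of_mul_nonneg_right h2 hm0
  have hαc := hα.isClosedForm
  have hθc := hθ.isClosedForm
  -- the good points
  have hDpr : ∀ D, Δ D ≠ 0 → IsPrimeDivisor (Cm n) D := fun D hD => (JB.snc hΔ).prime D hD
  have hoff := dense_compl_finite (X := X) hΔ.1 (fun D hD => (hDpr D hD).1) (fun D hD => by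
    rw [dense_iff_inter_open]
    intro U hU hUne
    obtain ⟨x, hxU, hxD⟩ := IsLocalEq.exists_notMem (hDpr D hD).2.1 hU hUne
    exact ⟨x, hxU, hxD⟩)
  set R₁ : Set X := {x | ∀ D ∈ {D | Δ D ≠ 0}, x ∉ D} with hR₁
  set R₂ : Set X := {x | 0 < ρ x} with hR₂
  set R₃ : Set X := {x | ∃ e : Chart n X, At e x ∧ (α e (e x)).PosDef} with hR₃
  have ho₂ : IsOpen R₂ := isOpen_lt continuous_const (INT.SmoothFn.continuous hρs)
  have ho₃ : IsOpen R₃ := by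
    rw [isOpen_iff_mem_nhds]
    rintro x ⟨e, he, hP⟩
    filter_upwards [ev_posDef hαc hα.posSemidef he hP] with y hy using ⟨e, hy.1, hy.2⟩
  have hd₃ : Dense R₃ := hαd.mono fun x hx => ⟨chartAt (Cm n) x, at_chartAt x, hx⟩
  have hRo : IsOpen (R₁ ∩ R₂ ∩ R₃) := (hoff.1.inter ho₂).inter ho₃
  have hRd : Dense (R₁ ∩ R₂ ∩ R₃) :=
    (hoff.2.inter_of_isOpen_left hρd hoff.1).inter_of_isOpen_left hd₃ (hoff.1.inter ho₂)
  obtain ⟨kσ, hkσ, hσs⟩ := hσ.mero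
  refine (dense_goodZ hj hf hsub h𝒢f (fun G hG => h𝒢p G hG) hkσ hσs hσ0 hRo hRd hνd).mono ?_
  rintro z ⟨hzs, hz𝒢, hzσ, ⟨⟨hz1, hz2⟩, e₃, he₃, hP₃⟩, hzν⟩
  have hAt : At (chartAt (Cm n) (j z)) (j z) := at_chartAt (j z)
  have hP := posDef_chart hαc.form hα.posSemidef hAt he₃ hP₃
  have hzD : ∀ i, j z ∉ Dv i := fun i => hz1 (Dv i) ((hDv _).2 ⟨i, rfl⟩)
  intro v hv
  refine ker_of_core (fun z => hj.1 z) hj.2.1 hj.2.2.1 (fun z => hf z) (z := z) (v := v) ?_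
  intro u V hu hV hxV hker
  refine coreGood coh eps bd int mass hχ hφ hm hρs hρ0 hBd hdl hC0 hC hθc hαc hθ.posSemidef
    hα.posSemidef (ν := ν) (C₁ := C₁) ?_ hμ hK hdec (𝒦 := KerF p j f) hgood hu hV
    (fun e y he hy v' hv' => hker e y he hy v' hv') hAt hxV
    (hpos z hz𝒢 hzD hzs hzσ).1 hz2 hP hzν _ hv
  exact ((eventually_ge_atTop (1 : ℝ)).mono fun s hs => hgrow s hs).frequently

end Vale.Agent.P281.H413.MFS
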