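import Vale.Agent.P281.H413.MFS.CoreLit
import Vale.Agent.P281.H368.MFS.Iface
import Vale.Agent.P281.H342.MFS.RW
import Vale.Agent.P281.H575.MFS.End

/-! P281, theorem MFS: the metric data on `X`, from the singular volume form `W`. -/

open scoped Manifold ContDiff ComplexOrder Topology
open Set Filter Vale.Agent.P281 Vale.Agent.P272.K Vale.Agent.P272.K.AMP Vale.Agent.P299
open Vale.Agent.P299.H882 (xi qf)
open Vale.Agent.P272.K.INT (IsClosedForm)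

set_option linter.all false

noncomputable section

namespace Vale.Agent.P281.H413.MFS

open Vale.Agent.P281.H713 Vale.Agent.P281.H713.SA Vale.Agent.P281.H713.KD Vale.Agent.P281.H716
open Vale.Agent.P281.H716.IsSys
open Vale.Agent.P281.H167.GM (mixX addF isClosed_addF phiD cHess_phiD smooth_logR)
open Vale.Agent.P281.H167.KG (LocAt FormPartG)
open Vale.Agent.P281.H368.MFS (IsSemiPos VolLoc ConAt SmallAt GrowthPartM)

theorem exists_enumM {κ : Type} (T : Finset κ) : ∃ (M : ℕ) (Dv : Fin M → κ),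
    Function.Injective Dv ∧ ∀ D, D ∈ T ↔ ∃ i, Dv i = D := by
  classical
  refine ⟨T.card, fun i => (T.equivFin.symm i : κ),
    fun i j hij => T.equivFin.symm.injective (Subtype.ext hij), fun D => ⟨fun hD => ?_, ?_⟩⟩
  · refine ⟨T.equivFin ⟨D, hD⟩, ?_⟩
    show ((T.equivFin.symm (T.equivFin ⟨D, hD⟩) : T) : κ) = D
    rw [Equiv.symm_apply_apply]
  · rintro ⟨i, rfl⟩
    exact (T.equivFin.symm i).2

/-- **the data on `X`** -/
theorem exists_dataX (hform : FormPartG) (hgr : GrowthPartM) {n : ℕ} {X : Type}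
    [TopologicalSpace X] [T2Space X] [CompactSpace X] [ConnectedSpace X]
    [ChartedSpace (Cm n) X] [IsManifold 𝓘(ℂ, Cm n) ω X]
    {χ : D.FormM n X} (hχ : IsKahler χ) {Δ : Set X → ℝ} (hΔ : J.IsSNC (Cm n) Δ)
    {m : ℕ} (hm : 0 < m) {k : Set X → ℕ} (hk : ∀ D, (k D : ℝ) = m * Δ D)
    {α θ : D.FormM n X} (hα : IsSemiPos α) (hθ : IsSemiPos θ)
    {ν : ℕ} (hν : ∀ e x, At e x → (θ e (e x)).rank ≤ ν) {W : X → ℝ}
    (hW : ∀ x, ∃ (r : ℕ) (g : Fin r → X → ℂ) (a : Fin r → ℕ),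
      VolLoc n m (fun (D : Set X) z g => J.IsLocalEq (Cm n) D g z) k W α θ x g a ∧
      ∀ᶠ z in 𝓝 x, ∀ i, g i z = 0 → ConAt n (g i) α θ z ∨ SmallAt n ν (g i) θ z) :
    ∃ (M : ℕ) (Dv : Fin M → Set X) (r : Fin M → X → ℝ) (R : Fin M → D.FormM n X)
      (φ : Chart n X → Cm n → ℝ) (ρ : X → ℝ) (C C₁ : ℝ), Function.Injective Dv ∧
      (∀ D, Δ D ≠ 0 ↔ ∃ i, Dv i = D) ∧ IsBd Dv r R ∧ IsCanonicalMetric φ ∧
      SmoothFn (n := n) ρ ∧ (∀ x, 0 ≤ ρ x) ∧ Dense {x | 0 < ρ x} ∧ 0 ≤ C ∧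
      H156.MFS.CurvMGe φ m ρ (fun i => Δ (Dv i)) R α C χ ∧
      ∀ s : ℝ, 1 ≤ s → mixX (addF α s θ) (H156.MFS.clsM φ (fun i => Δ (Dv i)) R α) ≤
        C₁ * s ^ ν / s := by
  classical
  set T : Finset (Set X) := hΔ.1.toFinset with hTdef
  have hTΔ : ∀ D, D ∈ T ↔ Δ D ≠ 0 := fun D => Set.Finite.mem_toFinset _
  have hTex : ∀ D ∈ T, ∀ x, ∃ g, J.IsLocalEq (Cm n) D g x := fun D hD =>
    (hΔ.2.1 D ((hTΔ D).1 hD)).2.1
  have hsX : IsSys n (H342.KD.eqD n) T := H342.KD.isSys_eqD hTex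
  have hm0 : (0 : ℝ) < m := by exact_mod_cast hm
  have hksupp : ∀ D, k D ≠ 0 → D ∈ T := by
    intro D hD
    refine (hTΔ D).2 fun h0 => hD ?_
    have h1 := hk D
    rw [h0, mul_zero] at h1
    exact_mod_cast h1
  obtain ⟨M, Dv, hinj, hDvT⟩ := exists_enumM T
  have hDv : ∀ i, Dv i ∈ T := fun i => (hDvT _).2 ⟨i, rfl⟩
  have hprod : ∀ f : Set X → ℂ, ∏ i, f (Dv i) = ∏ D ∈ T, f D := by
    intro f
    have h1 : T = Finset.univ.image Dv := by
      ext D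
      rw [hDvT, Finset.mem_image]
      simp
    rw [h1, Finset.prod_image fun i _ i' _ hii => hinj hii]
  choose ψ hψ hψle using fun i => H342.KD.exists_wt_le hsX (hDv i)
  have hφ := AMP.Main.isCanonical_logdet hχ.toIsHermitian
  set φ : Chart n X → Cm n → ℝ := fun e z => Real.log (χ e z).det.re with hφd
  set r : Fin M → X → ℝ := fun i => H342.KD.rr hsX (Dv i) (ψ i) with hrd
  set R : Fin M → D.FormM n X := fun i => Vale.Agent.P285.TM.cv (H342.KD.OD hsX (Dv i) (hDv i))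
    (ψ i) with hRd
  have hBd : IsBd Dv r R := by
    refine H342.KD.isBd hsX hinj hDv hψ hψle ?_
    intro x g hg c
    obtain ⟨ξ, hξ⟩ := hΔ.2.2.2 x g (fun D hD hx => hg D ((hTΔ D).2 hD) hx)
      (fun D => c ⟨D.1, (hTΔ D.1).2 D.2.1, D.2.2⟩)
    exact ⟨ξ, funext fun D => congrFun hξ ⟨D.1, (hTΔ D.1).1 D.2.1, D.2.2⟩⟩
  set dl : Fin M → ℝ := fun i => Δ (Dv i) with hdl
  set ρ : X → ℝ := H342.MFS.rhoW hsX Dv ψ φ k m W with hρdef
  set Λ : D.FormM n X := fun e z => clsK φ dl R e z - (θ e z - α e z) with hΛdef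
  have hαc := hα.isClosedForm
  have hθc := hθ.isClosedForm
  have hcls : IsClosedForm (H156.MFS.clsM φ dl R α) := H156.MFS.isClosed_clsM hφ hBd.closed hαc
  have hΛ : IsClosedForm Λ := by
    have h1 : Λ = addF (H156.MFS.clsM φ dl R α) (-1) θ := by
      funext e z
      show clsK φ dl R e z - (θ e z - α e z) =
        (clsK φ dl R e z + α e z) + (((-1 : ℝ) : ℝ) : ℂ) • θ e z
      rw [Complex.ofReal_neg, Complex.ofReal_one, neg_one_smul]
      abel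
    rw [h1]
    exact isClosed_addF hcls hθc (-1)
  have hloc : ∀ x, ∃ (r : ℕ) (g : Fin r → X → ℂ) (a : Fin r → ℕ) (w : X → ℂ),
      LocAt m Λ ρ x g a (fun (_ : Fin 1) => w) ∧
      ∀ᶠ z in 𝓝 x, ∀ i, g i z = 0 → ConAt n (g i) α θ z ∨ SmallAt n ν (g i) θ z := by
    intro x
    obtain ⟨r, g, a, hV, hD⟩ := hW x
    obtain ⟨T', q, u, h1, h2, h3, h4⟩ := hV.loc
    obtain ⟨w, -, -, hL⟩ := H342.MFS.locW (dl := dl) (B := fun e z => θ e z - α e z) hsX hprod hDv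
      hψ hφ hksupp (fun i => hk (Dv i)) h1 h2 hV.holg h3 h4
    exact ⟨r, g, a, w, hL, hD⟩
  obtain ⟨C, -, hC0, hρs, hρ0, hρd, -, -, hcurv, -⟩ := hform n X χ hχ m hm Λ hΛ ρ fun x => by
    obtain ⟨r, g, a, w, hL, -⟩ := hloc x
    exact ⟨r, 1, g, a, _, hL⟩
  obtain ⟨C₁, hC₁⟩ := hgr n X χ hχ m hm Λ hΛ ρ hρs hρ0 α θ hα hθ ν hν hloc
  refine ⟨M, Dv, r, R, φ, ρ, C, 2 * C₁, hinj, fun D => (hTΔ D).symm.trans (hDvT D), hBd, hφ, hρs,
    hρ0, hρd, hC0, ?_, ?_⟩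
  · intro δ hδ e x hx
    have h1 := hcurv δ hδ e x hx
    have h2 := h1.add (hθ.posSemidef e x hx)
    have h3 := cHess_phiD (m := m) hφ hρs hρ0 hδ hx
    have h4 : addH (H167.GM.cF φ) (fun x => (m : ℝ)⁻¹ * Real.log (ρ x + δ)) e (e x) =
        cHess (φ e) (e x) + (((m : ℝ)⁻¹ : ℝ) : ℂ) • hess (fun y => Real.log (ρ y + δ)) e (e x) := by
      show cHess (φ e) (e x) + cHess (fun y => (m : ℝ)⁻¹ * Real.log (ρ (e.symm y) + δ)) (e x) = _
      rw [C2.cHess_const_mul]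
      · rfl
      · have h5 : ContDiffAt ℝ ∞ (fun y => Real.log (ρ (e.symm y) + δ)) (e x) := by
          refine ((hρs e x hx).add contDiffAt_const).log ?_
          rw [hx.left_inv]
          have := hρ0 x
          linarith
        exact h5.of_le (by norm_cast)
    have h5 : H156.MFS.curvM φ m ρ δ dl R α e (e x) = cHess (phiD φ m ρ δ e) (e x) +
      (∑ i, ((dl i : ℝ) : ℂ) • R i e (e x)) + α e (e x) := rfl
    have h6 : Λ e (e x) = cHess (φ e) (e x) + (∑ i, ((dl i : ℝ) : ℂ) • R i e (e x)) -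
      (θ e (e x) - α e (e x)) := rfl
    have h7 : H156.MFS.curvM φ m ρ δ dl R α e (e x) +
        ((C * (δ / (ρ x + δ)) : ℝ) : ℂ) • χ e (e x) =
        Λ e (e x) + (((m : ℝ)⁻¹ : ℝ) : ℂ) • hess (fun y => Real.log (ρ y + δ)) e (e x) +
          ((C * (δ / (ρ x + δ)) : ℝ) : ℂ) • χ e (e x) + θ e (e x) := by
      rw [h5, h6, h3, h4]
      abel
    rw [h7]
    exact h2
  · intro s hs
    obtain ⟨h1, h2⟩ := hC₁ s hs
    have h3 := H575.MFS.mixX_add (Λ' := H156.MFS.clsM φ dl R α)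
      (isClosed_addF hαc hθc s) hχ hΛ hθc (fun e x hx => by
        show clsK φ dl R e (e x) + α e (e x) =
          (clsK φ dl R e (e x) - (θ e (e x) - α e (e x))) + θ e (e x)
        abel)
    rw [h3]
    calc mixX (addF α s θ) Λ + mixX (addF α s θ) θ ≤ C₁ * s ^ ν / s + C₁ * s ^ ν / s :=
          add_le_add h1 h2
      _ = 2 * C₁ * s ^ ν / s := by ring

end Vale.Agent.P281.H413.MFS
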