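import Vale.Agent.P281.H413.MFS.Est
import Vale.Agent.P281.H156.MFS.StepM

/-! P281, theorem MFS, block M-CO: a section of `m (K_Y + B)` forces `ker θ ⊂ ker ∂u`. -/

open scoped Manifold ContDiff ComplexOrder Topology
open Complex Set Filter MeasureTheory

set_option linter.all false

noncomputable section

namespace Vale.Agent.P281.H413.MFS

open Vale.Agent.P272.K Vale.Agent.P272.K.AMP Vale.Agent.P299.D Vale.Agent.P299 Vale.Agent.P299.H882
open Vale.Agent.P281.H167.SA Vale.Agent.P281.H167.GM Vale.Agent.P281.H713.KD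
open Vale.Agent.P281.H156.KD Vale.Agent.P281.H156.MFS
open INT (IsDensity intX IsClosedForm)

/-- the form `η ∂u ⊗ ∂̄u` -/
def wF {n : ℕ} {X : Type} [TopologicalSpace X] [ChartedSpace (Cm n) X] (η u : X → ℝ) :
    D.FormM n X :=
  fun e z => ((η (e.symm z) : ℝ) : ℂ) • dd u u e z

section

variable {n : ℕ} {X : Type} [TopologicalSpace X] [ChartedSpace (Cm n) X]

lemma trX_wF (g : D.FormM n X) (η u : X → ℝ) (x : X) :
    trX g (wF η u) x = η x * gradX g u u x := by
  have hx := at_chartAt (n := n) x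
  show ((g (chartAt (Cm n) x) (chartAt (Cm n) x x))⁻¹ *
    (((η ((chartAt (Cm n) x).symm (chartAt (Cm n) x x)) : ℝ) : ℂ) •
      dd u u (chartAt (Cm n) x) (chartAt (Cm n) x x))).trace.re = η x *
    ((g (chartAt (Cm n) x) (chartAt (Cm n) x x))⁻¹ *
      dd u u (chartAt (Cm n) x) (chartAt (Cm n) x x)).trace.re
  rw [hx.left_inv, Matrix.mul_smul, Matrix.trace_smul, smul_eq_mul, Complex.re_ofReal_mul]

end

variable {n M : ℕ} {X : Type} [TopologicalSpace X] [ChartedSpace (Cm n) X]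
  [IsManifold 𝓘(ℂ, Cm n) ω X]
  {χ θ α : D.FormM n X} {φ : Chart n X → Cm n → ℝ} {m : ℕ} {ρ : X → ℝ}
  {Dv : Fin M → Set X} {r : Fin M → X → ℝ} {R : Fin M → D.FormM n X} {dl : Fin M → ℝ}

/-- **Block M-CO**. -/
theorem corePartM [T2Space X] [CompactSpace X] [ConnectedSpace X] (coh : CohPart) (eps : EpsPart)
    (bd : BdPart) (int : IntPart) (mass : MassPartM)
    (hχ : IsKahler χ) (hφ : IsCanonicalMetric φ) (hm : 0 < m) (hρ : SmoothFn (n := n) ρ)
    (h0 : ∀ x, 0 ≤ ρ x) (hbd : IsBd Dv r R) (hdl : ∀ i, 0 ≤ dl i ∧ dl i < 1) {C : ℝ} (hC0 : 0 ≤ C)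
    (hC : CurvMGe φ m ρ dl R α C χ) (hθ : IsClosedForm θ) (hα : IsClosedForm α)
    (hθ0 : ∀ e x, At e x → (θ e (e x)).PosSemidef) (hα0 : ∀ e x, At e x → (α e (e x)).PosSemidef)
    {ν : ℕ} {C₁ : ℝ}
    (hgr : ∃ᶠ s : ℝ in atTop, mixX (addF α s θ) (clsM φ dl R α) ≤ C₁ * s ^ ν / s)
    {p μ : ℕ} (hμ : 0 < μ) {K : Fin M → ℕ} (hK : ∀ i, (K i : ℝ) ≤ μ * dl i)
    {N₀ N₁ : D.FormM n X → X → ℝ} (hN : IsDecPair Dv r χ p μ K N₀ N₁) {u₀ : X → ℝ}
    (hu₀ : ∀ g x, IsKahler g → 0 < N₀ g x → 0 < N₁ g x →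
      u₀ x = Real.log (N₁ g x) - Real.log (N₀ g x))
    {η u : X → ℝ} (cη : Continuous η) (hη0 : ∀ x, 0 ≤ η x) (hu : SmoothFn (n := n) u)
    (boch : BochOut Dv r R χ φ m ρ dl α (wF η u) C μ K N₀ N₁)
    {e : Chart n X} {x : X} (hx : At e x) (hx0 : 0 < N₀ χ x) (hx1 : 0 < N₁ χ x) (hρx : 0 < ρ x)
    (hηx : 0 < η x) (hP : (α e (e x)).PosDef) (hrk : (θ e (e x)).rank = ν) (v : Cm n)
    (hv : ∀ j, ∑ i, v i * θ e (e x) i j = 0) :
    ∑ i, xi u e (e x) i * v i = 0 := by
  by_contra hne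
  haveI : Nonempty X := ⟨x⟩
  obtain ⟨U0, c0, hU0, hw, hlw⟩ := exists_yauC H882.yau hχ hφ
  set w := addH χ U0 with hwdef
  have hwH := hw.toIsHermitian
  obtain ⟨hr, -, -⟩ := bd n M X χ hχ Dv r R hbd
  have hr0 : ∀ i x, 0 ≤ r i x := fun i x => IsBd.nonneg hbd i x
  -- the open set
  set V : Set X := {x | 0 < N₀ χ x ∧ 0 < N₁ χ x} with hVdef
  have c0' := sm_continuous (hN.smooth χ hχ).1
  have c1' := sm_continuous (hN.smooth χ hχ).2
  have hV : IsOpen V := (isOpen_lt continuous_const c0').inter (isOpen_lt continuous_const c1')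
  have hxV : x ∈ V := ⟨hx0, hx1⟩
  have hxic : ∀ i, ContinuousAt (fun z => xi u e z i) (e x) := fun i =>
    (contDiffAt_dz (m := 0) (r := 1) ((ofReal_contDiffAt (hu e x hx)).of_le
      (by norm_cast)) (by simp)).continuousAt
  obtain ⟨d0, hd0, hlow⟩ := lower_boundL hθ hα hθ0 hα0 hχ hw hx hP hxic v hv hne
  rw [hrk] at hlow
  have cρ := sm_continuous hρ
  have hρn : ∀ᶠ y in 𝓝 x, ρ x / 2 < ρ y :=
    cρ.continuousAt.eventually (lt_mem_nhds (half_lt_self hρx))
  have hηn : ∀ᶠ y in 𝓝 x, η x / 2 < η y :=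
    cη.continuousAt.eventually (lt_mem_nhds (half_lt_self hηx))
  -- the neighbourhood `N` of `x`
  obtain ⟨N, hNN, hNo, hxN⟩ :=
    mem_nhds_iff.1 (((hlow.and (hV.mem_nhds hxV)).and hρn).and hηn)
  obtain ⟨ζ, hζs, hζ1, hζ01⟩ := exists_tsupport_one_of_isOpen_isClosed hNo
    isClosed_closure.isCompact isClosed_singleton (Set.singleton_subset_iff.2 hxN)
  have hζx : ζ x = 1 := hζ1 rfl
  have hζc : Continuous fun y => ζ y := ζ.continuous
  have hIζ : 0 < J w (fun y => ζ y) :=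
    J_pos_of hwH hζc (fun y => (hζ01 y).1) (x := x) (by rw [hζx]; exact one_pos)
  set H := J w (fun y => ζ y) with hH
  set r0 := ρ x / 2 with hr0def
  have hr0p : 0 < r0 := half_pos hρx
  set q0 := η x / 2 with hq0def
  have hq0p : 0 < q0 := half_pos hηx
  have hμ0 : (0 : ℝ) < μ := by exact_mod_cast hμ
  obtain ⟨V1, hV10, hV1⟩ := vol_bound int hw hρ h0 hbd hr hdl m
  set l0 : ℝ := (m : ℝ)⁻¹ * Real.log r0 - ∑ i, dl i * Real.log 2 with hl0
  set K1 : ℝ := (Real.exp l0)⁻¹ * (n * V1) with hK1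
  have hK10 : 0 ≤ K1 := by positivity
  have hminv : 0 ≤ (m : ℝ)⁻¹ := by positivity
  set d1 : ℝ := μ * q0 * d0 with hd1
  have hd1p : 0 < d1 := by positivity
  -- the estimate for `t > 0`
  have step1 : ∀ s t : ℝ, 0 < s → 0 < t →
      d1 * s ^ ν * H ^ 2 ≤ K1 * μ * mixX (addF (addF α s θ) t χ) (clsM φ dl R α) := by
    intro s t hs ht
    refine le_of_forall_pos_le_add fun κ hκ => ?_
    set κ' : ℝ := κ / (K1 + 1) with hκ'
    have hκ'p : 0 < κ' := by positivity
    have hG : IsKahler (addF (addF α s θ) t χ) := isKahler_G hχ hθ hα hθ0 hα0 hs.le ht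
    obtain ⟨δ, U, τ, S, S0, c, hδ, hδ1, hU, hg, hlg, hSs, hS0s, hSn, hS0n, hSV, cτ, hτ0, hB, hB0,
      hJ⟩ := exists_stepM coh bd mass hχ hφ hm hρ h0 hbd hdl hC0 hC hθ hα hθ0 hα0 hK hN hu₀ boch hρx
        hx0 hs.le ht hκ'p
    have hGH := hG.toIsHermitian
    have hgH := hg.toIsHermitian
    have cL : Continuous (Lk m ρ δ dl r δ) := sm_continuous (smooth_Lk (m := m) (dl := dl) hρ h0 hδ
      hδ hr hr0)
    have cgr := cont_grad hgH hu hu
    have hgr0 : ∀ y, 0 ≤ gradX (addH (addF (addF α s θ) t χ) U) u u y := fun y =>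
      gradX_self_nonneg (fun e x h => hg.posDef e x h) u y
    set A : X → ℝ := fun y => μ * q0 * (ζ y * gradX (addH (addF (addF α s θ) t χ) U) u u y) with hA
    have cA : Continuous A := continuous_const.mul (hζc.mul cgr)
    have hA0 : ∀ y, 0 ≤ A y := fun y =>
      mul_nonneg (by positivity) (mul_nonneg (hζ01 y).1 (hgr0 y))
    have hAs : tsupport A ⊆ tsupport ζ := by
      refine closure_mono fun y hy => ?_
      rw [Function.mem_support] at hy ⊢
      intro h
      exact hy (by simp only [hA]; rw [h, zero_mul, mul_zero])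
    have hAle : ∀ y, A y ≤ μ * trX (addH (addF (addF α s θ) t χ) U) (wF η u) y := by
      intro y
      rw [trX_wF]
      simp only [hA]
      rw [mul_assoc]
      refine mul_le_mul_of_nonneg_left ?_ hμ0.le
      rw [← mul_assoc]
      refine mul_le_mul_of_nonneg_right ?_ (hgr0 y)
      by_cases hy : ζ y = 0
      · rw [hy, mul_zero]; exact hη0 y
      · have h1 := (hNN (hζs (subset_tsupport _ hy))).2
        calc q0 * ζ y ≤ q0 * 1 := mul_le_mul_of_nonneg_left (hζ01 y).2 hq0p.le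
          _ = q0 := mul_one _
          _ ≤ η y := h1.le
    have hJA : J (addH (addF (addF α s θ) t χ) U) A ≤ J (addH (addF (addF α s θ) t χ) U) τ := by
      have hBA : BochF (addH (addF (addF α s θ) t χ) U) (fun x => τ x - A x) S :=
        Vale.Agent.P281.H156.KD.BochF.mono hB fun y => by
          have := hAle y
          linarith
      refine J_le_of_boch hg hSs hSn cτ hτ0 cA hBA fun y hy => ?_
      · exact (hSV y (hNN (hζs (hAs hy))).1.1.2).1
    have hmain := main_estW hG hw cL hlw hU hg hlg cA hA0 (η := fun y => ζ y) hζc hζ01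
      (κ := d1 * s ^ ν) (l0 := l0) (V1 := V1) (by positivity) (hV1 δ hδ hδ1)
      (fun y hy => by
        obtain ⟨⟨⟨⟨h1, h2⟩, h3⟩, h4⟩, h5⟩ := hNN (hζs (hAs (subset_tsupport _ hy)))
        rw [hl0, Lk]
        refine sub_le_sub ?_ (Finset.sum_le_sum fun i _ => ?_)
        · exact mul_le_mul_of_nonneg_left (Real.log_le_log hr0p (by linarith)) hminv
        · refine mul_le_mul_of_nonneg_left (Real.log_le_log ?_ ?_) (hdl i).1
          · have := hr0 i y; linarith
          · have := hbd.le_one i y; linarith)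
      (fun y hy => by
        obtain ⟨⟨⟨⟨hyAt, h2⟩, h3⟩, h4⟩, h5⟩ := hNN (hζs (subset_tsupport _ hy))
        have hQ := h2 s t hs.le ht.le
        have hgrad : gradX (addH (addF (addF α s θ) t χ) U) u u y =
            qf (addH (addF (addF α s θ) t χ) U e (e y)) (xi u e (e y)) := by
          rw [gradX_eq hgH hu hu hyAt, gradE_eq_qf]
        have htr : trX (addF (addF α s θ) t χ) (addH (addF (addF α s θ) t χ) U) y =
            ((addF (addF α s θ) t χ e (e y))⁻¹ *
              addH (addF (addF α s θ) t χ) U e (e y)).trace.re := by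
          rw [trX_eq hGH hgH.isForm hyAt]; rfl
        have hdet := detR_eq hGH hwH hyAt
        have hdp : 0 < detR (addF (addF α s θ) t χ) w y := detR_pos hGH hwH y
        have hqle := qf_le (hGH.posDef e y hyAt) (hgH.posDef e y hyAt) (xi u e (e y))
        have e2 : d0 * s ^ ν ≤ qf (addH (addF (addF α s θ) t χ) U e (e y)) (xi u e (e y)) *
            trX (addF (addF α s θ) t χ) (addH (addF (addF α s θ) t χ) U) y *
            detR (addF (addF α s θ) t χ) w y := by
          refine hQ.trans ?_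
          rw [← hdet]
          refine mul_le_mul_of_nonneg_right ?_ hdp.le
          rw [htr, mul_comm]
          exact hqle
        simp only [hA]
        rw [hgrad]
        have h6 : 0 ≤ μ * q0 * ζ y := mul_nonneg (by positivity) (hζ01 y).1
        have h7 := mul_le_mul_of_nonneg_left e2 h6
        calc d1 * s ^ ν * ζ y = μ * q0 * ζ y * (d0 * s ^ ν) := by rw [hd1]; ring
          _ ≤ _ := h7
          _ = _ := by ring)
    have h5 : K1 * κ' ≤ κ := by
      rw [hκ']
      have : K1 * (κ / (K1 + 1)) = κ * (K1 / (K1 + 1)) := by ring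
      rw [this]
      have h3 : K1 / (K1 + 1) ≤ 1 := by
        rw [div_le_one (by positivity)]; linarith
      calc κ * (K1 / (K1 + 1)) ≤ κ * 1 := mul_le_mul_of_nonneg_left h3 hκ.le
        _ = κ := mul_one _
    calc d1 * s ^ ν * H ^ 2 ≤ K1 * J (addH (addF (addF α s θ) t χ) U) A := hmain
      _ ≤ K1 * J (addH (addF (addF α s θ) t χ) U) τ := mul_le_mul_of_nonneg_left hJA hK10
      _ ≤ K1 * (μ * mixX (addF (addF α s θ) t χ) (clsM φ dl R α) + κ') :=
          mul_le_mul_of_nonneg_left hJ hK10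
      _ ≤ K1 * μ * mixX (addF (addF α s θ) t χ) (clsM φ dl R α) + κ := by
          rw [mul_add, ← mul_assoc]; linarith
  -- `t → 0`
  have step2 : ∀ s : ℝ, 0 < s →
      d1 * s ^ ν * H ^ 2 ≤ K1 * μ * mixX (addF α s θ) (clsM φ dl R α) := by
    intro s hs
    have hlim := (eps n X (addF α s θ) (clsM φ dl R α) χ (isClosed_addF hα hθ s)
      (isClosed_clsM hφ hbd.closed hα) (INT.IsKahler.isClosedForm hχ)).const_mul (K1 * μ)
    refine ge_of_tendsto hlim ?_
    filter_upwards [self_mem_nhdsWithin] with ε hε using step1 s ε hs hε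
  -- contradiction
  have hK1μ : 0 ≤ K1 * μ := by positivity
  set a0 : ℝ := d1 * H ^ 2 with ha0
  have ha0p : 0 < a0 := by positivity
  obtain ⟨s, hs1, hs2⟩ := (hgr.and_eventually (eventually_gt_atTop
    (max 1 (K1 * μ * C₁ / a0)))).exists
  have hsp : 0 < s := lt_of_lt_of_le one_pos ((le_max_left _ _).trans hs2.le)
  have h1 := step2 s hsp
  have h2 := h1.trans (mul_le_mul_of_nonneg_left hs1 hK1μ)
  have hsν : 0 < s ^ ν := pow_pos hsp ν
  have h3 : a0 * s ^ ν ≤ K1 * μ * C₁ / s * s ^ ν := by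
    calc a0 * s ^ ν = d1 * s ^ ν * H ^ 2 := by rw [ha0]; ring
      _ ≤ K1 * μ * (C₁ * s ^ ν / s) := h2
      _ = K1 * μ * C₁ / s * s ^ ν := by ring
  have h4 := le_of_mul_le_mul_right h3 hsν
  rw [le_div_iff₀ hsp] at h4
  have h5 : K1 * μ * C₁ / a0 < s := (le_max_right _ _).trans_lt hs2
  rw [div_lt_iff₀ ha0p] at h5
  linarith

end Vale.Agent.P281.H413.MFS
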