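import Vale.Agent.P281.H413.MFS.BaseW

/-! P281, theorem MFS, block M-CO, with one section. -/

open scoped Manifold ContDiff ComplexOrder Topology
open Complex Set Filter MeasureTheory

set_option linter.all false

noncomputable section

namespace Vale.Agent.P281.H413.MFS

open Vale.Agent.P272.K Vale.Agent.P272.K.AMP Vale.Agent.P299.D Vale.Agent.P299 Vale.Agent.P299.H882
open Vale.Agent.P281.H167.SA Vale.Agent.P281.H167.GM Vale.Agent.P281.H713.KD
open Vale.Agent.P281.H156.KD Vale.Agent.P281.H156.MFS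
open INT (IsDensity intX IsClosedForm)

variable {n M : ℕ} {X : Type} [TopologicalSpace X] [ChartedSpace (Cm n) X]
  [IsManifold 𝓘(ℂ, Cm n) ω X]
  {w χ θ α G g W : D.FormM n X} {φ : Chart n X → Cm n → ℝ} {m : ℕ} {ρ : X → ℝ}
  {Dv : Fin M → Set X} {r : Fin M → X → ℝ} {R : Fin M → D.FormM n X} {dl : Fin M → ℝ}

/-- **one metric with small total curvature** -/
theorem exists_step1 [T2Space X] [CompactSpace X] [ConnectedSpace X] (coh : CohPart) (bd : BdPart)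
    (mass : MassPartM)
    (hχ : IsKahler χ) (hφ : IsCanonicalMetric φ) (hm : 0 < m) (hρ : SmoothFn (n := n) ρ)
    (h0 : ∀ x, 0 ≤ ρ x) (hbd : IsBd Dv r R) (hdl : ∀ i, 0 ≤ dl i ∧ dl i < 1) {C : ℝ} (hC0 : 0 ≤ C)
    (hC : CurvMGe φ m ρ dl R α C χ) (hθ : IsClosedForm θ) (hα : IsClosedForm α)
    (hθ0 : ∀ e x, At e x → (θ e (e x)).PosSemidef) (hα0 : ∀ e x, At e x → (α e (e x)).PosSemidef)
    {p μ : ℕ} {K : Fin M → ℕ} (hK : ∀ i, (K i : ℝ) ≤ μ * dl i)
    {N₀ N₁ : D.FormM n X → X → ℝ} (hN : IsDecPair Dv r χ p μ K N₀ N₁)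
    (boch : BochOut Dv r R χ φ m ρ dl α W C μ K N₀ N₁) {x₀ : X} (hρ₀ : 0 < ρ x₀) (hx₀ : 0 < N₀ χ x₀) {s t : ℝ} (hs : 0 ≤ s) (ht : 0 < t) {κ : ℝ}
    (hκ : 0 < κ) :
    ∃ (δ : ℝ) (U τ S : X → ℝ) (c : ℝ), 0 < δ ∧ δ ≤ 1 ∧ SmoothFn (n := n) U ∧
      IsKahler (addH (addF (addF α s θ) t χ) U) ∧
      (∀ e x, At e x → Real.log (addH (addF (addF α s θ) t χ) U e (e x)).det.re =
        φ e (e x) + Lk m ρ δ dl r δ x + c) ∧
      SmoothFn (n := n) S ∧ (∀ x, 0 ≤ S x) ∧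
      (∀ x, 0 < N₀ χ x → 0 < S x) ∧ Continuous τ ∧ (∀ x, 0 ≤ τ x) ∧
      BochF (addH (addF (addF α s θ) t χ) U)
        (fun x => τ x - μ * trX (addH (addF (addF α s θ) t χ) U) W x) S ∧
      H882.J (addH (addF (addF α s θ) t χ) U) τ ≤
        μ * mixX (addF (addF α s θ) t χ) (clsM φ dl R α) + κ := by
  have hG : IsKahler (addF (addF α s θ) t χ) := isKahler_G hχ hθ hα hθ0 hα0 hs ht
  obtain ⟨hr, ⟨Cb, hCb, hb⟩, -⟩ := bd n M X χ hχ Dv r R hbd
  have hr0 : ∀ i x, 0 ≤ r i x := fun i x => IsBd.nonneg hbd i x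
  have hR : ∀ i, IsClosedForm (R i) := hbd.closed
  obtain ⟨C₂, hC₂, hB⟩ := boch
  set C₃ : ℝ := max C₂ Cb with hC₃
  have hC₃0 : 0 ≤ C₃ := hC₂.trans (le_max_left _ _)
  set SK : ℝ := ∑ i, (K i : ℝ) with hSK
  have hSK0 : 0 ≤ SK := Finset.sum_nonneg fun i _ => Nat.cast_nonneg _
  have hμ0 : (0 : ℝ) ≤ μ := Nat.cast_nonneg μ
  have hti : 0 < t⁻¹ := inv_pos.2 ht
  set A1 : ℝ := μ * C * t⁻¹ + SK with hA1
  have hA10 : 0 ≤ A1 := by positivity
  set κ₁ : ℝ := κ / (2 * (A1 + 1)) with hκ₁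
  have hκ₁p : 0 < κ₁ := by positivity
  have hCG := CurvMGe.toG h0 hC0 hC hθ0 hα0 hs ht
  have hh : ∃ x, 0 < N₀ χ x + N₁ χ x := ⟨x₀, add_pos_of_pos_of_nonneg hx₀ (hN.nonneg χ x₀ hχ).2⟩
  obtain ⟨a, b, ha, cb, hb0, hb1, δ₁, hδ₁, H1⟩ := mass n M X _ hG φ hφ m hm ρ hρ h0 ⟨x₀, hρ₀⟩ Dv r R
    hbd dl hdl α hα (C / t) hCG (fun x => N₀ χ x + N₁ χ x) hN.hol hh (C₃ / t) κ₁ hκ₁p
  obtain ⟨C', hC', hBa⟩ := hB a ha
  set A2 : ℝ := C' * t⁻¹ * M with hA2
  have hA20 : 0 ≤ A2 := by positivity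
  set κ₂ : ℝ := κ / (2 * (A2 + 1)) with hκ₂
  have hκ₂p : 0 < κ₂ := by positivity
  obtain ⟨_, _, _, _, _, _, δ₂, hδ₂, H2⟩ := mass n M X _ hG φ hφ m hm ρ hρ h0 ⟨x₀, hρ₀⟩ Dv r R
    hbd dl hdl α hα (C / t) hCG (fun x => N₀ χ x + N₁ χ x) hN.hol hh (C₃ / t) κ₂ hκ₂p
  set δ : ℝ := min (min δ₁ δ₂) 1 with hδdef
  have hδ : 0 < δ := lt_min (lt_min hδ₁ hδ₂) one_pos
  have hδ1 : δ ≤ 1 := min_le_right _ _
  have hδδ₁ : δ ≤ δ₁ := (min_le_left _ _).trans (min_le_left _ _)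
  have hδδ₂ : δ ≤ δ₂ := (min_le_left _ _).trans (min_le_right _ _)
  have hcan := isCanonical_phiK (m := m) (dl := dl) hφ hρ h0 hδ hδ hr hr0
  obtain ⟨U, c, hU, hg, hlg⟩ := exists_yauC H882.yau hG hcan
  obtain ⟨E1, -, E3⟩ := H1 δ δ hδ hδδ₁ hδ hδδ₁ U c hU hg hlg
  obtain ⟨-, E2, -⟩ := H2 δ δ hδ hδδ₂ hδ hδδ₂ U c hU hg hlg
  have hBB : ∀ N : D.FormM n X → X → ℝ, N = N₀ ∨ N = N₁ →
      BochF (addH (addF (addF α s θ) t χ) U)
        (fun x => tauP χ (addH (addF (addF α s θ) t χ) U) (curvM φ m ρ δ dl R α) ρ r R C C' C₃ μ K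
          b δ δ x - μ * trX (addH (addF (addF α s θ) t χ) U) W x)
        (fun x => N (addH (addF (addF α s θ) t χ) U) x * pK r K δ x) := by
    intro N hNN
    have h1 := hBa b cb hb0 hb1 δ δ hδ hδ hδ1 _ c hg hlg N hNN
    exact BochF.mono h1 fun x => sub_le_sub_right (tauP_mono (C := C) (C' := C') hg.toIsHermitian hχ
      (le_max_left C₂ Cb) hb0 μ K δ δ x) _
  have hd : ∀ i x, (dF (r i) (R i) δ (chartAt (Cm n) x) (chartAt (Cm n) x x) +
      (C₃ : ℂ) • χ (chartAt (Cm n) x) (chartAt (Cm n) x x)).PosSemidef := by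
    intro i x
    have hx := at_chartAt (n := n) x
    have h1 := ((hb i _ x hx).2.2 δ hδ hδ1).1
    have h2 : 0 ≤ C₃ - Cb * (δ / (r i x + δ)) := by
      have h3 : δ / (r i x + δ) ≤ 1 := by
        have := hr0 i x
        rw [div_le_one (by linarith)]; linarith
      have h4 : Cb * (δ / (r i x + δ)) ≤ Cb * 1 := mul_le_mul_of_nonneg_left h3 hCb
      have h5 : Cb ≤ C₃ := le_max_right _ _
      linarith
    have h3 := h1.add (psd_real_smul ((hχ.posDef _ x hx).posSemidef) h2)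
    have e1 : dF (r i) (R i) δ (chartAt (Cm n) x) (chartAt (Cm n) x x) +
        ((Cb * (δ / (r i x + δ)) : ℝ) : ℂ) • χ (chartAt (Cm n) x) (chartAt (Cm n) x x) +
        ((C₃ - Cb * (δ / (r i x + δ)) : ℝ) : ℂ) • χ (chartAt (Cm n) x) (chartAt (Cm n) x x) =
        dF (r i) (R i) δ (chartAt (Cm n) x) (chartAt (Cm n) x x) +
          (C₃ : ℂ) • χ (chartAt (Cm n) x) (chartAt (Cm n) x x) := by
      rw [add_assoc, ← add_smul]
      congr 2
      push_cast
      ring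
    rw [← e1]
    exact h3
  have p1 : SmoothFn (n := n) (fun x => N₀ (addH (addF (addF α s θ) t χ) U) x * pK r K δ x) :=
    fun e x hx => ((hN.smooth _ hg).1 e x hx).mul (smooth_pK hr hr0 hδ K e x hx)
  have p2 : ∀ x, 0 ≤ N₀ (addH (addF (addF α s θ) t χ) U) x * pK r K δ x := fun x =>
    mul_nonneg (hN.nonneg _ x hg).1 (pK_pos hr0 hδ K x).le
  have p3 : ∀ x, 0 < N₀ χ x → 0 < N₀ (addH (addF (addF α s θ) t χ) U) x * pK r K δ x :=
    fun x hx => mul_pos ((hN.pos _ x hg).1.2 hx) (pK_pos hr0 hδ K x)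
  have hQ : IsClosedForm (curvM φ m ρ δ dl R α) := isClosed_curvM hφ hρ h0 hδ hR hα
  have hJ := J_tauP_le hχ hQ hρ h0 hr hr0 hR hθ hα hθ0 hα0 hs ht hδ hδ hU hg
    cb hb0 (C := C) (C' := C') (C₂ := C₃) (κ₁ := κ₁) (κ₂ := κ₂) hC0 hC' hC₃0 μ K E1 E2
    (fun i hi => E3 i (hN.ne i hi))
  refine ⟨δ, U, _, _, c, hδ, hδ1, hU, hg, fun e x hx => ?_, p1, p2, p3,
    cont_tauP hg.toIsHermitian hχ hQ hρ h0 hr hr0 hR hδ hδ cb C C' C₃ μ K,
    fun x => tauP_nonneg hg.toIsHermitian hχ hr0 hδ (hC δ hδ _ x (at_chartAt x)) hC'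
      (fun i => hd i x) hb0 μ K,
    hBB N₀ (Or.inl rfl), hJ.trans ?_⟩
  · rw [hlg e x hx, phiK_eq, hx.left_inv]
  · have f1 : H882.J (addH (addF (addF α s θ) t χ) U)
        (trX (addH (addF (addF α s θ) t χ) U) (curvM φ m ρ δ dl R α)) =
        mixX (addF (addF α s θ) t χ) (clsM φ dl R α) := by
      rw [J_trX hg.toIsHermitian hQ.form,
        mixX_curvM coh hφ hρ h0 hδ hR hα (INT.IsKahler.isClosedForm hG) hU]
    rw [f1]
    have g1 : A1 * κ₁ ≤ κ / 2 := by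
      rw [hκ₁]
      have : A1 * (κ / (2 * (A1 + 1))) = κ / 2 * (A1 / (A1 + 1)) := by
        field_simp
      rw [this]
      have h3 : A1 / (A1 + 1) ≤ 1 := by
        rw [div_le_one (by positivity)]; linarith
      calc κ / 2 * (A1 / (A1 + 1)) ≤ κ / 2 * 1 := mul_le_mul_of_nonneg_left h3 (by positivity)
        _ = κ / 2 := mul_one _
    have g2 : A2 * κ₂ ≤ κ / 2 := by
      rw [hκ₂]
      have : A2 * (κ / (2 * (A2 + 1))) = κ / 2 * (A2 / (A2 + 1)) := by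
        field_simp
      rw [this]
      have h3 : A2 / (A2 + 1) ≤ 1 := by
        rw [div_le_one (by positivity)]; linarith
      calc κ / 2 * (A2 / (A2 + 1)) ≤ κ / 2 * 1 := mul_le_mul_of_nonneg_left h3 (by positivity)
        _ = κ / 2 := mul_one _
    have g3 : A1 * κ₁ = μ * C * t⁻¹ * κ₁ + SK * κ₁ := by rw [hA1]; ring
    have g4 : A2 * κ₂ = C' * t⁻¹ * (M * κ₂) := by rw [hA2]; ring
    rw [g3] at g1
    rw [g4] at g2
    linarith

/-- **Block M-CO**. -/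
theorem corePart1 [T2Space X] [CompactSpace X] [ConnectedSpace X] (coh : CohPart) (eps : EpsPart)
    (bd : BdPart) (int : IntPart) (mass : MassPartM)
    (hχ : IsKahler χ) (hφ : IsCanonicalMetric φ) (hm : 0 < m) (hρ : SmoothFn (n := n) ρ)
    (h0 : ∀ x, 0 ≤ ρ x) (hbd : IsBd Dv r R) (hdl : ∀ i, 0 ≤ dl i ∧ dl i < 1) {C : ℝ} (hC0 : 0 ≤ C)
    (hC : CurvMGe φ m ρ dl R α C χ) (hθ : IsClosedForm θ) (hα : IsClosedForm α)
    (hθ0 : ∀ e x, At e x → (θ e (e x)).PosSemidef) (hα0 : ∀ e x, At e x → (α e (e x)).PosSemidef)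
    {ν : ℕ} {C₁ : ℝ}
    (hgr : ∃ᶠ s : ℝ in atTop, mixX (addF α s θ) (clsM φ dl R α) ≤ C₁ * s ^ ν / s)
    {p μ : ℕ} (hμ : 0 < μ) {K : Fin M → ℕ} (hK : ∀ i, (K i : ℝ) ≤ μ * dl i)
    {N₀ N₁ : D.FormM n X → X → ℝ} (hN : IsDecPair Dv r χ p μ K N₀ N₁)
    {η u : X → ℝ} (cη : Continuous η) (hη0 : ∀ x, 0 ≤ η x) (hu : SmoothFn (n := n) u)
    (boch : BochOut Dv r R χ φ m ρ dl α (wF η u) C μ K N₀ N₁)
    {e : Chart n X} {x : X} (hx : At e x) (hx0 : 0 < N₀ χ x) (hρx : 0 < ρ x)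
    (hηx : 0 < η x) (hP : (α e (e x)).PosDef) (hrk : (θ e (e x)).rank = ν) (v : Cm n)
    (hv : ∀ j, ∑ i, v i * θ e (e x) i j = 0) :
    ∑ i, xi u e (e x) i * v i = 0 := by
  by_contra hne
  haveI : Nonempty X := ⟨x⟩
  obtain ⟨U0, c0, hU0, hw, hlw⟩ := exists_yauC H882.yau hχ hφ
  set w := addH χ U0 with hwdef
  have hwH := hw.toIsHermitian
  obtain ⟨hr, -, -⟩ := bd n M X χ hχ Dv r R hbd
  have hr0 : ∀ i x, 0 ≤ r i x := fun i x => IsBd.nonneg hbd i x
  -- the open set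
  set V : Set X := {x | 0 < N₀ χ x} with hVdef
  have c0' := sm_continuous (hN.smooth χ hχ).1
  have hV : IsOpen V := isOpen_lt continuous_const c0'
  have hxV : x ∈ V := hx0
  have hxic : ∀ i, ContinuousAt (fun z => xi u e z i) (e x) := fun i =>
    (contDiffAt_dz (m := 0) (r := 1) ((ofReal_contDiffAt (hu e x hx)).of_le
      (by norm_cast)) (by simp)).continuousAt
  obtain ⟨d0, hd0, hlow⟩ := lower_boundL hθ hα hθ0 hα0 hχ hw hx hP hxic v hv hne
  rw [hrk] at hlow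
  have cρ := sm_continuous hρ
  have hρn : ∀ᶠ y in 𝓝 x, ρ x / 2 < ρ y :=
    cρ.continuousAt.eventually (lt_mem_nhds (half_lt_self hρx))
  have hηn : ∀ᶠ y in 𝓝 x, η x / 2 < η y :=
    cη.continuousAt.eventually (lt_mem_nhds (half_lt_self hηx))
  -- the neighbourhood `N` of `x`
  obtain ⟨N, hNN, hNo, hxN⟩ :=
    mem_nhds_iff.1 (((hlow.and (hV.mem_nhds hxV)).and hρn).and hηn)
  obtain ⟨ζ, hζs, hζ1, hζ01⟩ := exists_tsupport_one_of_isOpen_isClosed hNo
    isClosed_closure.isCompact isClosed_singleton (Set.singleton_subset_iff.2 hxN)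
  have hζx : ζ x = 1 := hζ1 rfl
  have hζc : Continuous fun y => ζ y := ζ.continuous
  have hIζ : 0 < J w (fun y => ζ y) :=
    J_pos_of hwH hζc (fun y => (hζ01 y).1) (x := x) (by rw [hζx]; exact one_pos)
  set H := J w (fun y => ζ y) with hH
  set r0 := ρ x / 2 with hr0def
  have hr0p : 0 < r0 := half_pos hρx
  set q0 := η x / 2 with hq0def
  have hq0p : 0 < q0 := half_pos hηx
  have hμ0 : (0 : ℝ) < μ := by exact_mod_cast hμ
  obtain ⟨V1, hV10, hV1⟩ := vol_bound int hw hρ h0 hbd hr hdl m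
  set l0 : ℝ := (m : ℝ)⁻¹ * Real.log r0 - ∑ i, dl i * Real.log 2 with hl0
  set K1 : ℝ := (Real.exp l0)⁻¹ * (n * V1) with hK1
  have hK10 : 0 ≤ K1 := by positivity
  have hminv : 0 ≤ (m : ℝ)⁻¹ := by positivity
  set d1 : ℝ := μ * q0 * d0 with hd1
  have hd1p : 0 < d1 := by positivity
  -- the estimate for `t > 0`
  have step1 : ∀ s t : ℝ, 0 < s → 0 < t →
      d1 * s ^ ν * H ^ 2 ≤ K1 * μ * mixX (addF (addF α s θ) t χ) (clsM φ dl R α) := by
    intro s t hs ht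
    refine le_of_forall_pos_le_add fun κ hκ => ?_
    set κ' : ℝ := κ / (K1 + 1) with hκ'
    have hκ'p : 0 < κ' := by positivity
    have hG : IsKahler (addF (addF α s θ) t χ) := isKahler_G hχ hθ hα hθ0 hα0 hs.le ht
    obtain ⟨δ, U, τ, S, c, hδ, hδ1, hU, hg, hlg, hSs, hSn, hSV, cτ, hτ0, hB, hJ⟩ :=
      exists_step1 coh bd mass hχ hφ hm hρ h0 hbd hdl hC0 hC hθ hα hθ0 hα0 hK hN boch hρx
        hx0 hs.le ht hκ'p
    have hGH := hG.toIsHermitian
    have hgH := hg.toIsHermitian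
    have cL : Continuous (Lk m ρ δ dl r δ) := sm_continuous (smooth_Lk (m := m) (dl := dl) hρ h0 hδ
      hδ hr hr0)
    have cgr := cont_grad hgH hu hu
    have hgr0 : ∀ y, 0 ≤ gradX (addH (addF (addF α s θ) t χ) U) u u y := fun y =>
      gradX_self_nonneg (fun e x h => hg.posDef e x h) u y
    set A : X → ℝ := fun y => μ * q0 * (ζ y * gradX (addH (addF (addF α s θ) t χ) U) u u y) with hA
    have cA : Continuous A := continuous_const.mul (hζc.mul cgr)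
    have hA0 : ∀ y, 0 ≤ A y := fun y =>
      mul_nonneg (by positivity) (mul_nonneg (hζ01 y).1 (hgr0 y))
    have hAs : tsupport A ⊆ tsupport ζ := by
      refine closure_mono fun y hy => ?_
      rw [Function.mem_support] at hy ⊢
      intro h
      exact hy (by simp only [hA]; rw [h, zero_mul, mul_zero])
    have hAle : ∀ y, A y ≤ μ * trX (addH (addF (addF α s θ) t χ) U) (wF η u) y := by
      intro y
      rw [trX_wF]
      simp only [hA]
      rw [mul_assoc]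
      refine mul_le_mul_of_nonneg_left ?_ hμ0.le
      rw [← mul_assoc]
      refine mul_le_mul_of_nonneg_right ?_ (hgr0 y)
      by_cases hy : ζ y = 0
      · rw [hy, mul_zero]; exact hη0 y
      · have h1 := (hNN (hζs (subset_tsupport _ hy))).2
        calc q0 * ζ y ≤ q0 * 1 := mul_le_mul_of_nonneg_left (hζ01 y).2 hq0p.le
          _ = q0 := mul_one _
          _ ≤ η y := h1.le
    have hJA : J (addH (addF (addF α s θ) t χ) U) A ≤ J (addH (addF (addF α s θ) t χ) U) τ := by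
      have hBA : BochF (addH (addF (addF α s θ) t χ) U) (fun x => τ x - A x) S :=
        Vale.Agent.P281.H156.KD.BochF.mono hB fun y => by
          have := hAle y
          linarith
      refine J_le_of_boch hg hSs hSn cτ hτ0 cA hBA fun y hy => ?_
      · exact hSV y (hNN (hζs (hAs hy))).1.1.2
    have hmain := main_estW hG hw cL hlw hU hg hlg cA hA0 (η := fun y => ζ y) hζc hζ01
      (κ := d1 * s ^ ν) (l0 := l0) (V1 := V1) (by positivity) (hV1 δ hδ hδ1)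
      (fun y hy => by
        obtain ⟨⟨⟨⟨h1, h2⟩, h3⟩, h4⟩, h5⟩ := hNN (hζs (hAs (subset_tsupport _ hy)))
        rw [hl0, Lk]
        refine sub_le_sub ?_ (Finset.sum_le_sum fun i _ => ?_)
        · exact mul_le_mul_of_nonneg_left (Real.log_le_log hr0p (by linarith)) hminv
        · refine mul_le_mul_of_nonneg_left (Real.log_le_log ?_ ?_) (hdl i).1
          · have := hr0 i y; linarith
          · have := hbd.le_one i y; linarith)
      (fun y hy => by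
        obtain ⟨⟨⟨⟨hyAt, h2⟩, h3⟩, h4⟩, h5⟩ := hNN (hζs (subset_tsupport _ hy))
        have hQ := h2 s t hs.le ht.le
        have hgrad : gradX (addH (addF (addF α s θ) t χ) U) u u y =
            qf (addH (addF (addF α s θ) t χ) U e (e y)) (xi u e (e y)) := by
          rw [gradX_eq hgH hu hu hyAt, gradE_eq_qf]
        have htr : trX (addF (addF α s θ) t χ) (addH (addF (addF α s θ) t χ) U) y =
            ((addF (addF α s θ) t χ e (e y))⁻¹ *
              addH (addF (addF α s θ) t χ) U e (e y)).trace.re := by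
          rw [trX_eq hGH hgH.isForm hyAt]; rfl
        have hdet := detR_eq hGH hwH hyAt
        have hdp : 0 < detR (addF (addF α s θ) t χ) w y := detR_pos hGH hwH y
        have hqle := qf_le (hGH.posDef e y hyAt) (hgH.posDef e y hyAt) (xi u e (e y))
        have e2 : d0 * s ^ ν ≤ qf (addH (addF (addF α s θ) t χ) U e (e y)) (xi u e (e y)) *
            trX (addF (addF α s θ) t χ) (addH (addF (addF α s θ) t χ) U) y *
            detR (addF (addF α s θ) t χ) w y := by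
          refine hQ.trans ?_
          rw [← hdet]
          refine mul_le_mul_of_nonneg_right ?_ hdp.le
          rw [htr, mul_comm]
          exact hqle
        simp only [hA]
        rw [hgrad]
        have h6 : 0 ≤ μ * q0 * ζ y := mul_nonneg (by positivity) (hζ01 y).1
        have h7 := mul_le_mul_of_nonneg_left e2 h6
        calc d1 * s ^ ν * ζ y = μ * q0 * ζ y * (d0 * s ^ ν) := by rw [hd1]; ring
          _ ≤ _ := h7
          _ = _ := by ring)
    have h5 : K1 * κ' ≤ κ := by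
      rw [hκ']
      have : K1 * (κ / (K1 + 1)) = κ * (K1 / (K1 + 1)) := by ring
      rw [this]
      have h3 : K1 / (K1 + 1) ≤ 1 := by
        rw [div_le_one (by positivity)]; linarith
      calc κ * (K1 / (K1 + 1)) ≤ κ * 1 := mul_le_mul_of_nonneg_left h3 hκ.le
        _ = κ := mul_one _
    calc d1 * s ^ ν * H ^ 2 ≤ K1 * J (addH (addF (addF α s θ) t χ) U) A := hmain
      _ ≤ K1 * J (addH (addF (addF α s θ) t χ) U) τ := mul_le_mul_of_nonneg_left hJA hK10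
      _ ≤ K1 * (μ * mixX (addF (addF α s θ) t χ) (clsM φ dl R α) + κ') :=
          mul_le_mul_of_nonneg_left hJ hK10
      _ ≤ K1 * μ * mixX (addF (addF α s θ) t χ) (clsM φ dl R α) + κ := by
          rw [mul_add, ← mul_assoc]; linarith
  -- `t → 0`
  have step2 : ∀ s : ℝ, 0 < s →
      d1 * s ^ ν * H ^ 2 ≤ K1 * μ * mixX (addF α s θ) (clsM φ dl R α) := by
    intro s hs
    have hlim := (eps n X (addF α s θ) (clsM φ dl R α) χ (isClosed_addF hα hθ s)
      (isClosed_clsM hφ hbd.closed hα) (INT.IsKahler.isClosedForm hχ)).const_mul (K1 * μ)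
    refine ge_of_tendsto hlim ?_
    filter_upwards [self_mem_nhdsWithin] with ε hε using step1 s ε hs hε
  -- contradiction
  have hK1μ : 0 ≤ K1 * μ := by positivity
  set a0 : ℝ := d1 * H ^ 2 with ha0
  have ha0p : 0 < a0 := by positivity
  obtain ⟨s, hs1, hs2⟩ := (hgr.and_eventually (eventually_gt_atTop
    (max 1 (K1 * μ * C₁ / a0)))).exists
  have hsp : 0 < s := lt_of_lt_of_le one_pos ((le_max_left _ _).trans hs2.le)
  have h1 := step2 s hsp
  have h2 := h1.trans (mul_le_mul_of_nonneg_left hs1 hK1μ)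
  have hsν : 0 < s ^ ν := pow_pos hsp ν
  have h3 : a0 * s ^ ν ≤ K1 * μ * C₁ / s * s ^ ν := by
    calc a0 * s ^ ν = d1 * s ^ ν * H ^ 2 := by rw [ha0]; ring
      _ ≤ K1 * μ * (C₁ * s ^ ν / s) := h2
      _ = K1 * μ * C₁ / s * s ^ ν := by ring
  have h4 := le_of_mul_le_mul_right h3 hsν
  rw [le_div_iff₀ hsp] at h4
  have h5 : K1 * μ * C₁ / a0 < s := (le_max_right _ _).trans_lt hs2
  rw [div_lt_iff₀ ha0p] at h5
  linarith

end Vale.Agent.P281.H413.MFS
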