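import Vale.Agent.P281.H413.MFS.Cut
import Vale.Agent.P281.H413.MFS.Step1
import Vale.Agent.P281.H723.MFS.BK

/-! P281, theorem MFS, row M-CO: `ker θ ⊂ ker ∂u`, if `∂u` vanishes on the kernel of the rows `b`. -/

open scoped Manifold ContDiff ComplexOrder Topology
open Complex Set Filter MeasureTheory

set_option linter.all false

noncomputable section

namespace Vale.Agent.P281.H413.MFS

open Vale.Agent.P272.K Vale.Agent.P272.K.AMP Vale.Agent.P299.D Vale.Agent.P299 Vale.Agent.P299.H882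
open Vale.Agent.P281.H167.SA Vale.Agent.P281.H167.GM Vale.Agent.P281.H713.KD
open Vale.Agent.P281.H156.KD
open INT (IsClosedForm)

variable {n M : ℕ} {X : Type} [TopologicalSpace X] [ChartedSpace (Cm n) X]
  [IsManifold 𝓘(ℂ, Cm n) ω X]
  {χ θ α : D.FormM n X} {φ : Chart n X → Cm n → ℝ} {m : ℕ} {ρ : X → ℝ}
  {Dv : Fin M → Set X} {r : Fin M → X → ℝ} {R : Fin M → D.FormM n X} {dl : Fin M → ℝ}

/-- **Row M-CO**, with the kernel predicate `𝒦` of the rows `b`. -/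
theorem coreGood [T2Space X] [CompactSpace X] [ConnectedSpace X] (coh : CohPart) (eps : EpsPart)
    (bd : BdPart) (int : IntPart) (mass : H156.MFS.MassPartM)
    (hχ : IsKahler χ) (hφ : IsCanonicalMetric φ) (hm : 0 < m) (hρ : SmoothFn (n := n) ρ)
    (h0 : ∀ x, 0 ≤ ρ x) (hbd : IsBd Dv r R) (hdl : ∀ i, 0 ≤ dl i ∧ dl i < 1) {C : ℝ} (hC0 : 0 ≤ C)
    (hC : H156.MFS.CurvMGe φ m ρ dl R α C χ) (hθ : IsClosedForm θ) (hα : IsClosedForm α)
    (hθ0 : ∀ e x, At e x → (θ e (e x)).PosSemidef) (hα0 : ∀ e x, At e x → (α e (e x)).PosSemidef)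
    {ν : ℕ} {C₁ : ℝ}
    (hgr : ∃ᶠ s : ℝ in atTop, mixX (addF α s θ) (H156.MFS.clsM φ dl R α) ≤ C₁ * s ^ ν / s)
    {p μ : ℕ} (hμ : 0 < μ) {K : Fin M → ℕ} (hK : ∀ i, (K i : ℝ) ≤ μ * dl i)
    {N₀ N₁ : D.FormM n X → X → ℝ} (hN : IsDecPair Dv r χ p μ K N₀ N₁)
    {𝒦 : Chart n X → X → Cm n → Prop} (hgood : H723.MFS.GoodF r χ p μ K N₀ N₁ 𝒦)
    {u : X → ℝ} (hu : SmoothFn (n := n) u) {V : Set X} (hV : IsOpen V)
    (h𝒦 : ∀ e y, At e y → y ∈ V → ∀ v : Cm n, 𝒦 e y v → ∑ i, xi u e (e y) i * v i = 0)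
    {e : Chart n X} {x : X} (hx : At e x) (hxV : x ∈ V) (hx0 : 0 < N₀ χ x) (hρx : 0 < ρ x)
    (hP : (α e (e x)).PosDef) (hrk : (θ e (e x)).rank = ν) (v : Cm n)
    (hv : ∀ j, ∑ i, v i * θ e (e x) i j = 0) :
    ∑ i, xi u e (e x) i * v i = 0 := by
  obtain ⟨η, hη, hη0, hηx, hηs, hηα⟩ := exists_eta hα hα0 hu hx hP (hV.mem_nhds hxV)
  have boch := H723.MFS.bochOut bd hχ hφ hρ h0 hbd (fun i => (hdl i).1) hC0 hα hC hK
    hN hgood (smooth_wF hη hu) (isForm_wF hu) hηα (fun e y hy w hw j => by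
      by_cases h : η y = 0
      · refine Finset.sum_eq_zero fun i _ => ?_
        simp only [wF, Matrix.smul_apply, smul_eq_mul]
        rw [hy.left_inv, h]
        simp
      · have h1 := h𝒦 e y hy (hηs (subset_tsupport _ h)) w hw
        have h2 : ∀ i, w i * wF η u e (e y) i j =
            (η y : ℂ) * star (xi u e (e y) j) * (xi u e (e y) i * w i) := fun i => by
          simp only [wF, Matrix.smul_apply, smul_eq_mul]
          rw [hy.left_inv, dd_eq_vec, Matrix.vecMulVec_apply, Pi.star_apply]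
          ring
        simp only [h2]
        rw [← Finset.mul_sum, h1, mul_zero])
  exact corePart1 coh eps bd int mass hχ hφ hm hρ h0 hbd hdl hC0 hC hθ hα
    hθ0 hα0 hgr hμ hK hN (INT.SmoothFn.continuous hη) hη0 hu boch hx hx0 hρx
    hηx hP hrk v hv

end Vale.Agent.P281.H413.MFS
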