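import Vale.Agent.P281.H156.KD.Est

/-! P281, theorem MFS: one section.  The total curvature bounds `∫ |∂u|²`. -/

open scoped Manifold ContDiff ComplexOrder Topology
open Complex Set Filter MeasureTheory

set_option linter.all false

noncomputable section

namespace Vale.Agent.P281.H413.MFS

open Vale.Agent.P272.K Vale.Agent.P272.K.AMP Vale.Agent.P299.D Vale.Agent.P299 Vale.Agent.P299.H882
open Vale.Agent.P281.H167.SA Vale.Agent.P281.H167.GM Vale.Agent.P281.H713.KD
open INT (IsDensity intX IsClosedForm)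

variable {n : ℕ} {X : Type} [TopologicalSpace X] [ChartedSpace (Cm n) X]
  [IsManifold 𝓘(ℂ, Cm n) ω X]
  {w χ θ β G g : D.FormM n X} {φ : Chart n X → Cm n → ℝ} {m : ℕ} {ρ : X → ℝ}

section cpt

variable [T2Space X] [CompactSpace X]

/-- the regularised logarithm of `S`, with an additional positive term `A`, supported in
`{S ≥ δ}` -/
theorem lap_kapW (hg : IsKahler g) {S τ A : X → ℝ} (hS : SmoothFn (n := n) S) (hS0 : ∀ x, 0 ≤ S x)
    (hτ0 : ∀ x, 0 ≤ τ x)
    (hB : BochF g (fun x => τ x - A x) S) {δ : ℝ} (hδ : 0 < δ) (hA : ∀ x, A x ≠ 0 → δ ≤ S x)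
    (x : X) : A x - τ x ≤ lapX g (fun x => kap δ (S x)) x := by
  rw [lapX_comp' ((kap_contDiff hδ).contDiffAt.of_le (by norm_cast)) hS, deriv_kap hδ]
  by_cases hx : S x < δ / 2
  · have hA0 : A x = 0 := by
      by_contra h
      have := hA x h
      linarith
    rw [fK_zero hδ hx.le, deriv_fK_zero hδ hx, hA0]
    have := hτ0 x
    linarith
  · have hSx : 0 < S x := by linarith [not_lt.1 hx]
    have h1 := hB x
    have h2 := fK_nonneg (δ := δ) hSx.le
    have h3 := mul_fK_le (δ := δ) hSx.le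
    have h4 := fK_add_nonneg hδ (S x)
    have h5 := gradX_self_nonneg (fun e x h => hg.posDef e x h) S x
    have h6 := hτ0 x
    have h7 : A x * S x * (1 - S x * fK δ (S x)) = 0 := by
      by_cases h : A x = 0
      · rw [h]; ring
      · have h8 := hA x h
        have h9 : S x * fK δ (S x) = 1 := by
          simp only [fK]
          rw [lamK_one hδ h8]
          field_simp
        rw [h9]; ring
    simp only at h1
    set L := lapX g S x
    set G := gradX g S S x
    set F := fK δ (S x)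
    set F' := deriv (fK δ) (S x)
    -- multiply by `S x`
    have h8 : 0 ≤ S x * (F * L + F' * G + τ x - A x) := by
      have e1 : S x * (F * L + F' * G + τ x - A x) =
          F * (S x * L + (τ x - A x) * S x ^ 2 - G) + (F + S x * F') * G +
            τ x * S x * (1 - S x * F) - A x * S x * (1 - S x * F) := by ring
      rw [e1, h7]
      have t1 : 0 ≤ F * (S x * L + (τ x - A x) * S x ^ 2 - G) := mul_nonneg h2 (by linarith)
      have t2 : 0 ≤ (F + S x * F') * G := mul_nonneg h4 h5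
      have t3 : 0 ≤ τ x * S x * (1 - S x * F) :=
        mul_nonneg (mul_nonneg h6 hSx.le) (by linarith)
      linarith
    have h9 : 0 ≤ F * L + F' * G + τ x - A x := by
      by_contra h
      push Not at h
      have := mul_neg_of_pos_of_neg hSx h
      linarith
    linarith

/-- `∫ A ≤ ∫ τ` -/
theorem J_le_of_boch (hg : IsKahler g) {S τ A : X → ℝ} (hS : SmoothFn (n := n) S)
    (hS0 : ∀ x, 0 ≤ S x) (cτ : Continuous τ) (hτ0 : ∀ x, 0 ≤ τ x) (cA : Continuous A)
    (hB : BochF g (fun x => τ x - A x) S) (hA : ∀ x ∈ tsupport A, 0 < S x) :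
    J g A ≤ J g τ := by
  have hgH := hg.toIsHermitian
  have hcS := sm_continuous hS
  obtain ⟨δ, hδ, hδS⟩ : ∃ δ : ℝ, 0 < δ ∧ ∀ x, A x ≠ 0 → δ ≤ S x := by
    rcases (tsupport A).eq_empty_or_nonempty with h | h
    · refine ⟨1, one_pos, fun x hx => ?_⟩
      have := subset_tsupport A hx
      rw [h] at this
      exact this.elim
    · obtain ⟨y, hy, hmin⟩ := (isClosed_tsupport A).isCompact.exists_isMinOn h hcS.continuousOn
      exact ⟨S y, hA y hy, fun x hx => hmin (subset_tsupport A hx)⟩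
  have hks : SmoothFn (n := n) (fun x => kap δ (S x)) :=
    sm_comp (φ := kap δ) (fun y => (kap_contDiff hδ).contDiffAt) hS
  have c1 : Continuous fun x => A x - τ x := cA.sub cτ
  have h1 := J_mono hgH c1 (cont_lap hgH hks)
    (fun x => lap_kapW hg hS hS0 hτ0 hB hδ hδS x)
  rw [J_sub hgH cA cτ, J_lap hg hks] at h1
  linarith

/-- **the main estimate** -/
theorem main_estW (hG : IsKahler G) (hw : IsKahler w) {c0 : ℝ} {L : X → ℝ} (cL : Continuous L)
    (hlw : ∀ e x, At e x → Real.log (w e (e x)).det.re = φ e (e x) + c0)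
    {U : X → ℝ} {c : ℝ} (hU : SmoothFn (n := n) U)
    (hg : IsKahler (addH G U))
    (hlg : ∀ e x, At e x → Real.log (addH G U e (e x)).det.re = φ e (e x) + L x + c)
    {A : X → ℝ} (cA : Continuous A) (hA0 : ∀ x, 0 ≤ A x)
    {η : X → ℝ} (hηc : Continuous η) (hη01 : ∀ x, η x ∈ Icc (0 : ℝ) 1)
    {κ l0 V1 : ℝ} (hκ : 0 < κ) (hV1 : J w (fun x => Real.exp (L x)) ≤ V1)
    (hAη : ∀ y, A y ≠ 0 → l0 ≤ L y)
    (hK : ∀ y, η y ≠ 0 → κ * η y ≤ A y * (trX G (addH G U) y * detR G w y)) :
    κ * (J w η) ^ 2 ≤ (Real.exp l0)⁻¹ * (n * V1) * J (addH G U) A := by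
  set g : D.FormM n X := addH G U with hgdef
  have hGH := hG.toIsHermitian
  have hgH := hg.toIsHermitian
  have hwH := hw.toIsHermitian
  set B : X → ℝ := fun y => trX G g y * detR G w y with hBdef
  have ctr : Continuous (trX G g) := sm_continuous (smoothFn_trX hGH hgH.isForm hgH.smooth)
  have cB : Continuous B := ctr.mul (sm_continuous (smoothFn_detR hGH hwH))
  have htr0 : ∀ y, 0 ≤ trX G g y := by
    intro y
    have hy := at_chartAt (n := n) y
    rw [trX_eq hGH hgH.isForm hy]
    exact (Complex.le_def.1 (C2.trace_mul_nonneg (hGH.posDef _ y hy).inv.posSemidef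
      (hgH.posDef _ y hy).posSemidef)).1
  have hB0' : ∀ y, 0 ≤ B y := fun y => mul_nonneg (htr0 y) (detR_pos hGH hwH y).le
  set κ1 : ℝ := 2 * Real.sqrt κ with hκ1
  have hκ1p : 0 < κ1 := by positivity
  have hκ1sq : κ1 ^ 2 = 4 * κ := by
    rw [hκ1, mul_pow, Real.sq_sqrt hκ.le]; norm_num
  -- arithmetic-geometric mean inequality and integration
  have hηle : ∀ t : ℝ, 0 < t → ∀ y, κ1 * η y * t ≤ t ^ 2 * A y + B y := by
    intro t ht y
    have hη := hη01 y
    have hA := hA0 y
    have hB := hB0' y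
    by_cases hy : η y = 0
    · rw [hy]
      have : 0 ≤ t ^ 2 * A y := by positivity
      simp only [mul_zero, zero_mul]
      linarith
    · have h1 : κ * η y ≤ A y * B y := hK y hy
      have h0 : 0 ≤ t ^ 2 * A y + B y := by positivity
      have h3 : (κ1 * η y * t) ^ 2 ≤ (t ^ 2 * A y + B y) ^ 2 := by
        have h5 : (t ^ 2 * A y + B y) ^ 2 = (t ^ 2 * A y - B y) ^ 2 + 4 * t ^ 2 * (A y * B y) := by
          ring
        have h6 : (κ1 * η y * t) ^ 2 = 4 * t ^ 2 * (κ * η y ^ 2) := by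
          rw [mul_pow, mul_pow, hκ1sq]; ring
        have h7 : κ * η y ^ 2 ≤ κ * η y := by
          refine mul_le_mul_of_nonneg_left ?_ hκ.le
          nlinarith [hη.1, hη.2]
        rw [h5, h6]
        have h8 : 4 * t ^ 2 * (κ * η y ^ 2) ≤ 4 * t ^ 2 * (A y * B y) :=
          mul_le_mul_of_nonneg_left (h7.trans h1) (by positivity)
        nlinarith [sq_nonneg (t ^ 2 * A y - B y)]
      exact (pow_le_pow_iff_left₀ (mul_nonneg (mul_nonneg hκ1p.le hη.1) ht.le) h0
        two_ne_zero).1 h3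
  set H : ℝ := J w η with hH
  set a' : ℝ := J w A with ha'
  set b' : ℝ := J w B with hb'
  have hH0 : 0 ≤ H := J_nonneg hwH fun x => (hη01 x).1
  have ha0 : 0 ≤ a' := J_nonneg hwH hA0
  have hb0 : 0 ≤ b' := J_nonneg hwH hB0'
  have hquad : ∀ t : ℝ, 0 ≤ a' * (t * t) + (-(κ1 * H)) * t + b' := by
    intro t
    rcases le_or_gt t 0 with ht | ht
    · have h1 : 0 ≤ a' * (t * t) := mul_nonneg ha0 (mul_self_nonneg t)
      have h2 : 0 ≤ (-(κ1 * H)) * t := by
        have : 0 ≤ κ1 * H := mul_nonneg hκ1p.le hH0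
        nlinarith
      linarith
    · have c0' : Continuous fun y => κ1 * η y * t := (continuous_const.mul hηc).mul continuous_const
      have c1 : Continuous fun y => t ^ 2 * A y := continuous_const.mul cA
      have c3 : Continuous fun y => t ^ 2 * A y + B y := c1.add cB
      have hint := J_mono hwH c0' c3 (hηle t ht)
      have e1 : J w (fun y => κ1 * η y * t) = κ1 * t * H := by
        rw [hH, ← J_const_mul]
        exact J_congr fun x => by ring
      rw [e1, J_add hwH c1 cB, J_const_mul] at hint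
      nlinarith
  have hdisc := discrim_le_zero hquad
  have hAB : κ * H ^ 2 ≤ a' * b' := by
    unfold discrim at hdisc
    have : (κ1 * H) ^ 2 ≤ 4 * a' * b' := by nlinarith
    rw [mul_pow, hκ1sq] at this
    linarith
  -- `b' = n P`
  have hJB : b' = n * J G (fun _ => 1) := by
    rw [hb', hBdef, J_detR hGH hwH, H156.KD.J_tr_selfL hG hU hg]
  have hvol : J G (fun _ => 1) = J g (fun _ => 1) := by
    rw [J_one, J_one]
    exact (INT.intX_det_add_cHess (INT.IsKahler.isClosedForm hG) hU).symm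
  have cEx : Continuous fun x => Real.exp (L x) := Real.continuous_exp.comp cL
  have hPle : Real.exp (-(c - c0)) * J g (fun _ => 1) ≤ V1 := by
    rw [H156.KD.J_relL hgH hwH hlw hlg, ← mul_assoc, ← Real.exp_add, neg_add_cancel, Real.exp_zero,
      one_mul]
    refine le_trans (le_of_eq ?_) hV1
    exact J_congr fun x => one_mul _
  set κK : ℝ := Real.exp l0 with hκK
  have hκKp : 0 < κK := Real.exp_pos _
  have haJ : κK * a' ≤ Real.exp (-(c - c0)) * J g A := by
    rw [H156.KD.J_relL hgH hwH hlw hlg, ← mul_assoc, ← Real.exp_add, neg_add_cancel, Real.exp_zero,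
      one_mul, ha', ← J_const_mul]
    refine J_mono hwH (continuous_const.mul cA) (cA.mul cEx) fun y => ?_
    by_cases hy : A y = 0
    · rw [hy, zero_mul, mul_zero]
    · have h2 : κK ≤ Real.exp (L y) := Real.exp_le_exp.2 (hAη y hy)
      rw [mul_comm]
      exact mul_le_mul_of_nonneg_left h2 (hA0 y)
  have hJA0 : 0 ≤ J g A := J_nonneg hgH hA0
  have hec : 0 < Real.exp (-(c - c0)) := Real.exp_pos _
  -- final computation
  have h1 : κ * H ^ 2 ≤ a' * (n * J g (fun _ => 1)) := by rw [← hvol, ← hJB]; exact hAB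
  have h2 : a' ≤ κK⁻¹ * (Real.exp (-(c - c0)) * J g A) := by
    rw [inv_mul_eq_div, le_div_iff₀ hκKp, mul_comm]
    exact haJ
  have hP0 : 0 ≤ J g (fun _ => 1) := J_nonneg hgH fun _ => zero_le_one
  have hn0 : (0 : ℝ) ≤ n := Nat.cast_nonneg n
  have hV10 : 0 ≤ V1 := le_trans (mul_nonneg hec.le hP0) hPle
  calc κ * H ^ 2 ≤ a' * (n * J g (fun _ => 1)) := h1
    _ ≤ (κK⁻¹ * (Real.exp (-(c - c0)) * J g A)) * (n * J g (fun _ => 1)) :=
        mul_le_mul_of_nonneg_right h2 (mul_nonneg hn0 hP0)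
    _ = κK⁻¹ * (n * (Real.exp (-(c - c0)) * J g (fun _ => 1))) * J g A := by ring
    _ ≤ κK⁻¹ * (n * V1) * J g A := by
        refine mul_le_mul_of_nonneg_right ?_ hJA0
        exact mul_le_mul_of_nonneg_left (mul_le_mul_of_nonneg_left hPle hn0) (inv_nonneg.2 hκKp.le)

end cpt

end Vale.Agent.P281.H413.MFS
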